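import Vale.Agent.P273.D14.Move4

/-!
A leg that is forgotten and sits at a position with `A = b = 0` can be dropped from a relation:
the relation is the relation without this leg times `2γ - 2 + n`.
-/

noncomputable section
namespace Vale.Agent.P273.D14.H18
open Sum Vale.Agent.P273 Vale.Agent.P273.D14.Mv Vale.Agent.P273.C1.R3B Vale.Agent.P273.C1.R1B
open scoped Classical

variable {V E L M N R T : Type}

/-- The environment with one more leg `none`, that is not used. -/
def dropE (W : Env R T L N) : Env R T (Option L) N :=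
  ⟨W.dec, fun y => (W.use y).map some id, fun o => o.elim 0 W.b⟩

lemma dropE_use {W : Env R T L N} {y : (T × Bool) ⊕ N} {x : Option L}
    (h : (dropE W).use y = inl x) : ∃ x', x = some x' ∧ W.use y = inl x' := by
  change (W.use y).map some id = inl x at h
  rcases hy : W.use y with x' | p
  · rw [hy] at h
    exact ⟨x', (inl.inj h).symm, rfl⟩
  · rw [hy] at h
    cases h

lemma dropE_range (W : Env R T L N) (x : L) :
    inl (some x) ∈ Set.range (dropE W).use ↔ inl x ∈ Set.range W.use := by
  constructor
  · rintro ⟨y, hy⟩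
    obtain ⟨x', hx, hy'⟩ := dropE_use hy
    rw [Option.some_injective L hx]
    exact ⟨y, hy'⟩
  · rintro ⟨y, hy⟩
    exact ⟨y, by show (W.use y).map some id = _; rw [hy]; rfl⟩

lemma dropE_range_none (W : Env R T L N) : inl none ∉ Set.range (dropE W).use := by
  rintro ⟨y, hy⟩
  obtain ⟨x', hx, _⟩ := dropE_use hy
  cases hx

lemma dropE_inj {W : Env R T L N} (hW : ∀ y z x, W.use y = inl x → W.use z = inl x → y = z) :
    ∀ y z x, (dropE W).use y = inl x → (dropE W).use z = inl x → y = z := by
  intro y z x hy hz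
  obtain ⟨x', hx, hy'⟩ := dropE_use hy
  obtain ⟨x'', hx', hz'⟩ := dropE_use hz
  rw [hx] at hx'
  rw [Option.some_injective L hx'] at hy'
  exact hW _ _ _ hy' hz'

lemma dropE_unused [Finite L] (W : Env R T L N) (G : Gr V E (Option L)) (v : V) :
    (dropE W).unused G v = (if (G.hf (inr none)).1 = v then {(G.hf (inr none)).2} else 0) +
      ∑ᶠ (x) (_ : inl x ∉ Set.range W.use ∧ (G.hf (inr (some x))).1 = v),
        {(G.hf (inr (some x))).2 + W.b x} := by
  have := Fintype.ofFinite L
  unfold Env.unused
  rw [finsum_eq_sum_of_fintype, Fintype.sum_option, finsum_eq_if, finsum_eq_sum_of_fintype]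
  congr 1
  · apply if_congr _ rfl rfl
    exact ⟨fun h => h.2, fun h => ⟨dropE_range_none W, h⟩⟩
  · apply Finset.sum_congr rfl
    intro x _
    rw [dropE_range]
    rfl

lemma upd_dec_self (G : Gr V E N) (v : V) (K : Multiset ℕ) :
    (G.upd v K).dec v = ((G.dec v).1, K) := by
  unfold Gr.upd
  simp

lemma upd_dec_ne (G : Gr V E N) {v w : V} (h : w ≠ v) (K : Multiset ℕ) :
    (G.upd v K).dec w = G.dec w := by
  unfold Gr.upd
  simp [h]

/-- Adding the forgotten leg to the vertex `v` adds an index to its kappa decoration. -/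
lemma dropE_addLeg [Finite L] (W : Env R T L N) (G : Gr V E L) (v : V) (K : Multiset ℕ) (c : ℕ) :
    (dropE W).graft (G.addLeg v K c) = (W.graft G).upd (inl v) (c ::ₘ (K + W.unused G v)) := by
  apply Gr.ext'
  · rintro (w | r)
    · rw [Env.graft_dec_inl, dropE_unused]
      have e : (∑ᶠ (x) (_ : inl x ∉ Set.range W.use ∧ ((G.addLeg v K c).hf (inr (some x))).1 = w),
        ({((G.addLeg v K c).hf (inr (some x))).2 + W.b x} : Multiset ℕ)) = W.unused G w := rfl
      rw [e]
      have e2 : ((G.addLeg v K c).hf (inr none)) = (v, c) := rfl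
      rw [e2]
      by_cases hw : w = v
      · subst hw
        rw [addLeg_dec_self]
        dsimp only
        rw [upd_dec_self, if_pos rfl, Env.graft_dec_inl]
        congr 1
        rw [← Multiset.singleton_add]
        abel
      · rw [addLeg_dec_ne _ hw, upd_dec_ne _ (fun h => hw (inl.inj h)), Env.graft_dec_inl]
        dsimp only
        rw [if_neg (fun h => hw h.symm), zero_add]
    · rw [Env.graft_dec_inr, upd_dec_ne _ (fun h => by cases h), Env.graft_dec_inr]
      rfl
  · intro y
    show _ = (W.graft G).hf y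
    rcases graft_cases y with ⟨e, b, rfl⟩ | ⟨y, rfl⟩
    · rfl
    · rw [graft_hf_lft, graft_hf_lft]
      rcases hy : W.use y with x | p
      · have h1 : (dropE W).use y = inl (some x) := by
          show (W.use y).map some id = _
          rw [hy]; rfl
        rw [Env.usehf_inl h1, Env.usehf_inl hy]
        rfl
      · have h1 : (dropE W).use y = inr p := by
          show (W.use y).map some id = _
          rw [hy]; rfl
        rw [Env.usehf_inr h1, Env.usehf_inr hy]

/-- the value on a graph with the forgotten leg added -/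
lemma sg_dropE_addLeg [Finite E] [Finite T] [Finite L] [Finite N] {g d : ℕ} {s : Q.Fn N}
    (hs : Q.Tr g d s) (W : Env R T L N)
    (hW : ∀ y z x, W.use y = inl x → W.use z = inl x → y = z) (G : Gr V E L) (v : V) :
    Mv.sg s ((dropE W).graft (G.addLeg v (G.dec v).2 0)) -
      ((G.dec v).2.map fun k =>
        Mv.sg s ((dropE W).graft (G.addLeg v ((G.dec v).2.erase k) k))).sum =
      (2 * ((G.dec v).1 : ℚ) - 2 + G.nv v) * Mv.sg s (W.graft G) := by
  have h1 : ∀ k ∈ (G.dec v).2,
      Mv.sg s ((dropE W).graft (G.addLeg v ((G.dec v).2.erase k) k)) =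
      Mv.sg s (W.graft G) := by
    intro k hk
    rw [dropE_addLeg, ← Multiset.cons_add, Multiset.cons_erase hk]
    congr 1
    apply Gr.ext'
    · intro w
      by_cases hw : w = inl v
      · subst hw
        rw [upd_dec_self, Env.graft_dec_inl]
      · rw [upd_dec_ne _ hw]
    · intro y
      rfl
  rw [Multiset.map_congr rfl h1, Multiset.map_const', Multiset.sum_replicate, dropE_addLeg]
  have h2 := hs.2.2 _ _ (W.graft G).dec (W.graft G).hf (inl v)
  have h4 : Mv.sg s ((W.graft G).upd (inl v) (0 ::ₘ ((G.dec v).2 + W.unused G v))) =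
      (2 * (((W.graft G).dec (inl v)).1 : ℚ) - 2 + Q.nv (W.graft G).hf (inl v) +
        ((W.graft G).dec (inl v)).2.card) * Mv.sg s (W.graft G) := h2
  have h5 : Q.nv (W.graft G).hf (inl v) = (W.graft G).nv (inl v) := rfl
  have h6 := nv_graft_add W hW G v
  rw [h4, Env.graft_dec_inl, Multiset.card_add, h5, nsmul_eq_mul, ← h6]
  push_cast
  ring

/-- a graph in which the forgotten leg sits at a trivalent vertex of genus 0 -/
lemma sg_dropE_zero [Finite E] [Finite T] [Finite L] [Finite N] {g d : ℕ} {s : Q.Fn N}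
    (hs : Q.Tr g d s) (W : Env R T L N)
    (hW : ∀ y z x, W.use y = inl x → W.use z = inl x → y = z) (G : Gr V E (Option L))
    (h1 : (G.dec (G.hf (inr none)).1).1 = 0) (h2 : G.nv (G.hf (inr none)).1 = 3) :
    Mv.sg s ((dropE W).graft G) = 0 := by
  apply hs.1
  apply Mv.not_valid_of_unstable (v := inl (G.hf (inr none)).1)
  have h4 := nv_graft_add (dropE W) (dropE_inj hW) G (G.hf (inr none)).1
  rw [Env.graft_dec_inl]
  dsimp only
  have h5 : 1 ≤ ((dropE W).unused G (G.hf (inr none)).1).card := by
    rw [dropE_unused, if_pos rfl, Multiset.card_add, Multiset.card_singleton]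
    omega
  omega

/-- **A forgotten leg with `A = b = 0` can be dropped.** -/
theorem rlE_drop [Finite R] [Finite T] [Finite L] [Finite N] {g d : ℕ} {s : Q.Fn N}
    (hs : Q.Tr g d s) (W : Env R T L N)
    (hW : ∀ y z x, W.use y = inl x → W.use z = inl x → y = z) (A : L → ℕ) (hA : ∀ x, A x ≤ 1)
    (γ e : ℕ) : rlE s (dropE W) (Option.elim' 0 A) γ e =
      (2 * (γ : ℚ) - 2 + Nat.card L) * rlE s W A γ e := by
  by_cases hγ : 2 < 2 * γ + Nat.card L
  · rw [rlE_eq, rlE_eq]
    have k := kthm (fun V E a f => Mv.sg s ((dropE W).graft (⟨a, f⟩ : Gr V E (Option L)))) A hA γ e hγ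
      (inv_graft hs (dropE W)) (by
        intro V E G _ _ h1 h2 _
        exact sg_dropE_zero hs W hW G h1 h2)
    refine Eq.trans k ?_
    rw [Finset.mul_sum]
    apply Finset.sum_congr rfl
    intro p _
    by_cases h0 : wt p.2.2 γ A e = 0
    · unfold cf
      rw [h0]
      ring
    · obtain ⟨hst, _⟩ := wt_ne_zero h0
      have h1 : Mv.pb (fun V E a f => Mv.sg s ((dropE W).graft (⟨a, f⟩ : Gr V E (Option L)))) _ _
          p.2.2.dec p.2.2.hf = (2 * (γ : ℚ) - 2 + Nat.card L) * Mv.sg s (W.graft p.2.2) := by
        rw [Mv.pb_eq]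
        have e1 : ∀ v, (Mv.sg s ((dropE W).graft (p.2.2.addLeg v (p.2.2.dec v).2 0)) -
            ((p.2.2.dec v).2.map fun k =>
              Mv.sg s ((dropE W).graft (p.2.2.addLeg v ((p.2.2.dec v).2.erase k) k))).sum) =
            (2 * ((p.2.2.dec v).1 : ℚ) - 2 + p.2.2.nv v) * Mv.sg s (W.graft p.2.2) :=
          fun v => sg_dropE_addLeg hs W hW p.2.2 v
        have e2 : ∀ z, Mv.sg s ((dropE W).graft (p.2.2.bubble z)) = 0 := by
          intro z
          apply sg_dropE_zero hs W hW
          · rfl
          · exact nv_bubble_none p.2.2 z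
        have e3 : ∑ᶠ (z) (_ : (p.2.2.hf z).2 ≠ 0), Mv.sg s ((dropE W).graft (p.2.2.bubble z)) = 0 := by
          apply finsum_eq_zero_of_forall_eq_zero
          intro z
          rw [e2, finsum_eq_if]
          split_ifs <;> rfl
        refine Eq.trans (congrArg₂ (· - ·) (finsum_congr e1) e3) ?_
        rw [sub_zero, finsum_eq_sum_of_fintype, ← Finset.sum_mul,
          Gr.Stab.sum_chi inferInstance hst]
      rw [h1]
      ring
  · have h1 : rlE s W A γ e = 0 := by
      rw [rlE_eq]
      apply Finset.sum_eq_zero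
      intro p _
      have : wt p.2.2 γ A e = 0 := by
        by_contra hne
        obtain ⟨hst, _⟩ := wt_ne_zero hne
        have h5 := hst.sum_chi (inferInstance : Finite (Fin p.2.1))
        have h6 : ∀ v, (1 : ℚ) ≤ 2 * ((p.2.2.dec v).1 : ℚ) - 2 + p.2.2.nv v := by
          intro v
          have := hst.2.2.2 v
          have h7 : ((2 + 1 : ℕ) : ℚ) ≤ ((2 * (p.2.2.dec v).1 + p.2.2.nv v : ℕ) : ℚ) := by
            exact_mod_cast this
          push_cast at h7
          linarith
        have h7 := Finset.sum_le_sum (s := Finset.univ) fun v _ => h6 v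
        obtain ⟨v0⟩ := hst.1
        have h8 : (1 : ℚ) ≤ ∑ v : Fin p.1, (1 : ℚ) := by
          have : 0 < p.1 := v0.pos
          simp only [Finset.sum_const, Finset.card_univ, Fintype.card_fin, nsmul_eq_mul, mul_one]
          exact_mod_cast this
        have h9 : (1 : ℚ) ≤ 2 * γ - 2 + Nat.card L := by linarith
        have h10 : ((2 * γ + Nat.card L : ℕ) : ℚ) ≤ 2 := by
          push Not at hγ
          exact_mod_cast hγ
        push_cast at h10
        linarith
      unfold cf
      rw [this]
      ring
    rw [h1, mul_zero, rlE_eq]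
    apply Finset.sum_eq_zero
    intro p _
    by_cases h0 : wt p.2.2 γ (Option.elim' 0 A) e = 0
    · unfold cf
      rw [h0]
      ring
    · obtain ⟨hst, _⟩ := wt_ne_zero h0
      have h2 : Mv.sg s ((dropE W).graft p.2.2) = 0 := by
        by_contra hne
        have hv : Q.Valid ((dropE W).graft p.2.2).dec ((dropE W).graft p.2.2).hf g d := by
          by_contra h
          exact hne (hs.1 _ _ _ _ h)
        have h3 : ∀ v, 2 < 2 * (((dropE W).graft p.2.2).dec (inl v)).1 +
            ((dropE W).graft p.2.2).nv (inl v) := by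
          intro v
          by_contra h
          push Not at h
          exact Mv.not_valid_of_unstable h hv
        have h5 := hst.sum_chi (inferInstance : Finite (Fin p.2.1))
        have h6 : ∀ v, (1 : ℚ) + (if (p.2.2.hf (inr none)).1 = v then 1 else 0) ≤
            2 * ((p.2.2.dec v).1 : ℚ) - 2 + p.2.2.nv v := by
          intro v
          have h7 := h3 v
          rw [Env.graft_dec_inl] at h7
          have h8 := nv_graft_add (dropE W) (dropE_inj hW) p.2.2 v
          have h9 : (if (p.2.2.hf (inr none)).1 = v then 1 else 0) ≤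
              ((dropE W).unused p.2.2 v).card := by
            rw [dropE_unused, Multiset.card_add]
            split_ifs <;> simp
          have h10 : 3 + (if (p.2.2.hf (inr none)).1 = v then 1 else 0) ≤
              2 * (p.2.2.dec v).1 + p.2.2.nv v := by
            dsimp only at h7
            omega
          have h11 : ((3 + (if (p.2.2.hf (inr none)).1 = v then 1 else 0) : ℕ) : ℚ) ≤
              ((2 * (p.2.2.dec v).1 + p.2.2.nv v : ℕ) : ℚ) := by
            exact_mod_cast h10
          push_cast at h11
          linarith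
        have h7 := Finset.sum_le_sum (s := Finset.univ) fun v _ => h6 v
        rw [Finset.sum_add_distrib, Finset.sum_ite_eq, if_pos (Finset.mem_univ _)] at h7
        obtain ⟨v0⟩ := hst.1
        have h8 : (1 : ℚ) ≤ ∑ v : Fin p.1, (1 : ℚ) := by
          have : 0 < p.1 := v0.pos
          simp only [Finset.sum_const, Finset.card_univ, Fintype.card_fin, nsmul_eq_mul, mul_one]
          exact_mod_cast this
        rw [Finite.card_option] at h5
        push_cast at h5
        have h10 : ((2 * γ + Nat.card L : ℕ) : ℚ) ≤ 2 := by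
          push Not at hγ
          exact_mod_cast hγ
        push_cast at h10
        linarith
      rw [h2, mul_zero]

/-! ### the version for `rl` -/

/-- Dropping one forgotten leg. -/
theorem rl_drop [Finite R] [Finite T] [Finite L] [Finite N] {g d : ℕ} {s : Q.Fn N}
    (hs : Q.Tr g d s) (r : R → ℕ × Multiset ℕ) (u : (T × Bool) ⊕ N → L ⊕ R × ℕ) (b A : L → ℕ)
    (γ e : ℕ) (hu : ∀ y z x, u y = inl x → u z = inl x → y = z) (hA : ∀ x, A x ≤ 1) (x0 : L)
    (h0 : ∀ y, u y ≠ inl x0) (hA0 : A x0 = 0) (hb0 : b x0 = 0) :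
    ∃ (c : ℚ) (u' : (T × Bool) ⊕ N → {x // x ≠ x0} ⊕ R × ℕ),
      (∀ y, (u' y).map Subtype.val id = u y) ∧
      rl s r u b A γ e = c * rl s r u' (fun x => b x.1) (fun x => A x.1) γ e := by
  have hex : ∀ y, ∃ z : {x // x ≠ x0} ⊕ R × ℕ, z.map Subtype.val id = u y := by
    intro y
    rcases h : u y with x | p
    · exact ⟨inl ⟨x, fun hx => h0 y (by rw [h, hx])⟩, rfl⟩
    · exact ⟨inr p, rfl⟩
  choose u' hu' using hex
  refine ⟨2 * (γ : ℚ) - 2 + Nat.card {x // x ≠ x0}, u', hu', ?_⟩
  let W : Env R T {x // x ≠ x0} N := ⟨r, u', fun x => b x.1⟩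
  have hW : ∀ y z x, W.use y = inl x → W.use z = inl x → y = z := by
    intro y z x hy hz
    have h1 := hu' y
    have h2 := hu' z
    have hy' : u' y = inl x := hy
    have hz' : u' z = inl x := hz
    rw [hy'] at h1
    rw [hz'] at h2
    exact hu _ _ _ h1.symm h2.symm
  have h := rlE_drop hs W hW (fun x => A x.1) (fun x => hA x.1) γ e
  rw [← rl_relab _ _ _ _ _ _ _ (Equiv.optionSubtypeNe x0).symm]
  have e1 : (fun x => A ((Equiv.optionSubtypeNe x0).symm.symm x)) =
      Option.elim' 0 (fun x : {x // x ≠ x0} => A x.1) := by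
    funext x
    rcases x with _ | x
    · simpa using hA0
    · rfl
  have e2 : (fun x => b ((Equiv.optionSubtypeNe x0).symm.symm x)) = (dropE W).b := by
    funext x
    rcases x with _ | x
    · have h1 : b ((Equiv.optionSubtypeNe x0).symm.symm none) = 0 := by simpa using hb0
      exact h1
    · rfl
  have e3 : (fun y : (T × Bool) ⊕ N => ((u y).map (Equiv.optionSubtypeNe x0).symm id :
      Option {x // x ≠ x0} ⊕ R × ℕ)) = (dropE W).use := by
    funext y
    show _ = (u' y).map some id
    rw [← hu' y]
    rcases u' y with x | p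
    · simp only [Sum.map_inl]
      rw [Equiv.optionSubtypeNe_symm_of_ne x.2]
    · rfl
  rw [e1, e2, e3]
  exact h

/-- **All forgotten legs with `A = b = 0` can be dropped.** -/
theorem rl_drop_all [Finite R] [Finite T] [Finite L] [Finite N] {g d : ℕ} {s : Q.Fn N}
    (hs : Q.Tr g d s) (r : R → ℕ × Multiset ℕ) (u : (T × Bool) ⊕ N → L ⊕ R × ℕ) (b A : L → ℕ)
    (γ e : ℕ) (hu : ∀ y z x, u y = inl x → u z = inl x → y = z) (hA : ∀ x, A x ≤ 1) :
    ∃ (c : ℚ) (u' : (T × Bool) ⊕ N →
        {x // ¬ ((∀ y, u y ≠ inl x) ∧ A x = 0 ∧ b x = 0)} ⊕ R × ℕ),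
      (∀ y, (u' y).map Subtype.val id = u y) ∧
      rl s r u b A γ e = c * rl s r u' (fun x => b x.1) (fun x => A x.1) γ e := by
  obtain ⟨n, hn⟩ : ∃ n, Nat.card L = n := ⟨_, rfl⟩
  induction n using Nat.strong_induction_on generalizing L with
  | _ n ih =>
    by_cases hex : ∃ x, (∀ y, u y ≠ inl x) ∧ A x = 0 ∧ b x = 0
    · obtain ⟨x0, h0, hA0, hb0⟩ := hex
      obtain ⟨c, u', hu', h1⟩ := rl_drop hs r u b A γ e hu hA x0 h0 hA0 hb0
      have hinj : ∀ y z x, u' y = inl x → u' z = inl x → y = z := by
        intro y z x hy hz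
        have k1 := hu' y
        have k2 := hu' z
        rw [hy] at k1
        rw [hz] at k2
        exact hu _ _ _ k1.symm k2.symm
      have hcard : Nat.card {x // x ≠ x0} < n := by
        have := Gr.card_ne L x0
        omega
      obtain ⟨c', u'', hu'', h2⟩ := ih _ hcard u' (fun x => b x.1) (fun x => A x.1) hinj
        (fun x => hA x.1) rfl
      have hiff : ∀ x : {x // x ≠ x0}, (∀ y, u' y ≠ inl x) ↔ ∀ y, u y ≠ inl x.1 := by
        intro x
        constructor
        · intro h y hy
          apply h y
          have k1 := hu' y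
          rw [hy] at k1
          rcases hz : u' y with z | p
          · rw [hz] at k1
            have : z.1 = x.1 := inl.inj k1
            rw [Subtype.ext this]
          · rw [hz] at k1
            cases k1
        · intro h y hy
          apply h y
          have k1 := hu' y
          rw [hy] at k1
          exact k1.symm
      let q : {x : {x // x ≠ x0} // ¬ ((∀ y, u' y ≠ inl x) ∧ A x.1 = 0 ∧ b x.1 = 0)} ≃
          {x // ¬ ((∀ y, u y ≠ inl x) ∧ A x = 0 ∧ b x = 0)} :=
        { toFun := fun x => ⟨x.1.1, fun h => x.2 ⟨(hiff x.1).2 h.1, h.2⟩⟩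
          invFun := fun x => ⟨⟨x.1, fun h => x.2 (by rw [h]; exact ⟨h0, hA0, hb0⟩)⟩,
            fun h => x.2 ⟨(hiff _).1 h.1, h.2⟩⟩
          left_inv := fun x => rfl
          right_inv := fun x => rfl }
      refine ⟨c * c', fun y => (u'' y).map q id, ?_, ?_⟩
      · intro y
        have k1 := hu' y
        rw [← hu'' y] at k1
        rw [← k1]
        dsimp only
        rcases u'' y with x | p <;> rfl
      · rw [h1, h2, mul_assoc]
        congr 2
        exact (rl_relab s r u'' (fun x => b x.1.1) (fun x => A x.1.1) γ e q).symm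
    · push Not at hex
      let q : L ≃ {x // ¬ ((∀ y, u y ≠ inl x) ∧ A x = 0 ∧ b x = 0)} :=
        { toFun := fun x => ⟨x, fun h => hex x h.1 h.2.1 h.2.2⟩
          invFun := fun x => x.1
          left_inv := fun x => rfl
          right_inv := fun x => rfl }
      refine ⟨1, fun y => (u y).map q id, ?_, ?_⟩
      · intro y
        dsimp only
        rcases u y with x | p <;> rfl
      · rw [one_mul]
        exact (rl_relab s r u b A γ e q).symm

end Vale.Agent.P273.D14.H18
end
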