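import Vale.Agent.P273.D14.H18.Star

/-!
The relation `(*)` for the functional `G`, at a rational vertex, with all possible decorations of
the rest of the graph.
-/

noncomputable section
namespace Vale.Agent.P273.D14.H18
open Sum Vale.Agent.P273 Vale.Agent.P273.D14.H387
open scoped Classical

variable {V E D : Type}

/-- A family of decorated graphs: the half-edges `q d` move between the rational vertices `v0` and
`v1`, that are joined by the edge `e0`. -/
structure Fam (q : D → E × Bool) (v0 v1 : V) (e0 : E) (a : V → ℕ × Multiset ℕ)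
    (f : (D → Bool) → (E × Bool) ⊕ LL → V × ℕ) : Prop where
  inj : q.Injective
  ne : v0 ≠ v1
  q0 : ∀ d, (q d).1 ≠ e0
  a0 : a v0 = (0, 0)
  a1 : a v1 = (0, 0)
  fq : ∀ δ d, f δ (inl (q d)) = (if δ d then v1 else v0, 0)
  ft : ∀ δ, f δ (inl (e0, true)) = (v1, 0)
  ff : ∀ δ, f δ (inl (e0, false)) = (v0, 0)
  rest : ∀ y, y ∉ Set.range q → y.1 ≠ e0 → ∃ p : V × ℕ, p.1 ≠ v0 ∧ p.1 ≠ v1 ∧ ∀ δ, f δ (inl y) = p
  legs : ∀ x, ∃ p : V × ℕ, (p.1 = v0 ∨ p.1 = v1 → p.2 = 0) ∧ ∀ δ, f δ (inr x) = p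
  st : ∀ δ, 2 < Q.nv (f δ) v0 ∧ 2 < Q.nv (f δ) v1

namespace Fam

variable {q : D → E × Bool} {v0 v1 : V} {e0 : E} {a : V → ℕ × Multiset ℕ}
    {f : (D → Bool) → (E × Bool) ⊕ LL → V × ℕ}

/-- the three kinds of half-edges and legs -/
lemma cases (M : Fam q v0 v1 e0 a f) (y : (E × Bool) ⊕ LL) :
    (∃ p : V × ℕ, (p.1 = v0 ∨ p.1 = v1 → p.2 = 0) ∧ ∀ δ, f δ y = p) ∨
      ∀ δ, ((f δ y).1 = v0 ∨ (f δ y).1 = v1) ∧ (f δ y).2 = 0 := by
  rcases y with y | x
  · by_cases h1 : y ∈ Set.range q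
    · right
      obtain ⟨d, rfl⟩ := h1
      intro δ
      rw [M.fq]
      refine ⟨?_, rfl⟩
      dsimp only
      split_ifs
      · exact Or.inr rfl
      · exact Or.inl rfl
    · left
      by_cases h2 : y.1 = e0
      · obtain ⟨e, b⟩ := y
        dsimp only at h2
        subst h2
        cases b
        · exact ⟨(v0, 0), fun _ => rfl, M.ff⟩
        · exact ⟨(v1, 0), fun _ => rfl, M.ft⟩
      · obtain ⟨p, h3, h4, h5⟩ := M.rest y h1 h2
        exact ⟨p, fun h => by rcases h with h | h <;> contradiction, h5⟩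
  · left
    exact M.legs x

lemma snd_eq (M : Fam q v0 v1 e0 a f) (δ δ' : D → Bool) (y : (E × Bool) ⊕ LL) :
    (f δ y).2 = (f δ' y).2 := by
  rcases M.cases y with ⟨p, _, h⟩ | h
  · rw [h, h]
  · rw [(h δ).2, (h δ').2]

lemma snd_zero (M : Fam q v0 v1 e0 a f) (δ : D → Bool) {y : (E × Bool) ⊕ LL}
    (hy : (f δ y).1 = v0 ∨ (f δ y).1 = v1) : (f δ y).2 = 0 := by
  rcases M.cases y with ⟨p, h1, h⟩ | h
  · rw [h] at hy ⊢
    exact h1 hy
  · exact (h δ).2

lemma fst_iff (M : Fam q v0 v1 e0 a f) (δ δ' : D → Bool) {s : Set V} (hs : v0 ∈ s ↔ v1 ∈ s)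
    (y : (E × Bool) ⊕ LL) : (f δ y).1 ∈ s ↔ (f δ' y).1 ∈ s := by
  rcases M.cases y with ⟨p, _, h⟩ | h
  · rw [h, h]
  · rcases (h δ).1 with h1 | h1 <;> rcases (h δ').1 with h2 | h2 <;> rw [h1, h2]
    · exact hs
    · exact hs.symm

lemma fst_eq (M : Fam q v0 v1 e0 a f) (δ δ' : D → Bool) {u : V} (h0 : u ≠ v0) (h1 : u ≠ v1)
    (y : (E × Bool) ⊕ LL) : (f δ y).1 = u ↔ (f δ' y).1 = u :=
  M.fst_iff δ δ' (s := {u}) (iff_of_false (fun h => h0 h.symm) (fun h => h1 h.symm)) y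

lemma nv_eq (M : Fam q v0 v1 e0 a f) (δ δ' : D → Bool) {u : V} (h0 : u ≠ v0) (h1 : u ≠ v1) :
    Q.nv (f δ) u = Q.nv (f δ') u :=
  Nat.card_congr (Equiv.subtypeEquivRight fun y => M.fst_eq δ δ' h0 h1 y)

lemma valid (M : Fam q v0 v1 e0 a f) (δ δ' : D → Bool) {g d : ℕ} (h : Q.Valid a (f δ) g d) :
    Q.Valid a (f δ') g d := by
  obtain ⟨⟨h1, h2, h3, h4, h5, h6, h7⟩, h8⟩ := h
  refine ⟨⟨h1, h2, h3, ?_, h5, ?_, ?_⟩, ?_⟩
  · intro s hs
    have h01 : v0 ∈ s ↔ v1 ∈ s := by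
      have := hs e0
      rw [M.ft, M.ff] at this
      exact this.symm
    apply h4
    intro e
    rw [M.fst_iff δ δ' h01, M.fst_iff δ δ' h01]
    exact hs e
  · intro u
    by_cases hu0 : u = v0
    · subst hu0
      have := (M.st δ').1
      omega
    by_cases hu1 : u = v1
    · subst hu1
      have := (M.st δ').2
      omega
    rw [M.nv_eq δ' δ hu0 hu1]
    exact h6 u
  · rw [← h7]
    congr 1
    apply finsum_congr
    intro y
    exact M.snd_eq _ _ _
  · intro u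
    have hz : ∀ u, (u = v0 ∨ u = v1) → ∑ᶠ (y) (_ : (f δ' y).1 = u), (f δ' y).2 = 0 := by
      intro u hu
      apply finsum_eq_zero_of_forall_eq_zero
      intro y
      rw [finsum_eq_if]
      split_ifs with hy
      · apply M.snd_zero
        rw [hy]
        exact hu
      · rfl
    by_cases hu0 : u = v0
    · subst hu0
      have := (M.st δ').1
      rw [hz _ (Or.inl rfl), M.a0]
      simp only [Multiset.sum_zero]
      omega
    by_cases hu1 : u = v1
    · subst hu1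
      have := (M.st δ').2
      rw [hz _ (Or.inr rfl), M.a1]
      simp only [Multiset.sum_zero]
      omega
    have := h8 u
    rw [M.nv_eq δ' δ hu0 hu1]
    have e1 : ∑ᶠ (y) (_ : (f δ' y).1 = u), (f δ' y).2 =
        ∑ᶠ (y) (_ : (f δ y).1 = u), (f δ y).2 := by
      apply finsum_congr
      intro y
      rw [finsum_eq_if, finsum_eq_if]
      exact if_congr (M.fst_eq δ' δ hu0 hu1 y) (M.snd_eq _ _ _) rfl
    rw [e1]
    exact this

lemma zfac_eq (M : Fam q v0 v1 e0 a f) (δ δ' : D → Bool) : H387.zfac a (f δ) = H387.zfac a (f δ') := by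
  unfold H387.zfac
  apply finprod_congr
  intro u
  by_cases hu0 : u = v0
  · rw [hu0, M.a0]
    simp [zf_zero]
  by_cases hu1 : u = v1
  · rw [hu1, M.a1]
    simp [zf_zero]
  rw [M.nv_eq δ δ' hu0 hu1]

lemma ty1_iff (M : Fam q v0 v1 e0 a f) (δ δ' : D → Bool) :
    Ty1 (rz a) (f δ) ↔ Ty1 (rz a) (f δ') := by
  unfold Ty1
  refine and_congr Iff.rfl (forall_congr' fun y => ?_)
  rw [M.snd_eq δ δ' y]

lemma ty_ne (M : Fam q v0 v1 e0 a f) {δ : D → Bool} {w : V} (h : Ty (rz a) (f δ) w) :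
    w ≠ v0 ∧ w ≠ v1 := by
  have h1 := h.1
  constructor
  · rintro rfl
    unfold rz at h1
    rw [M.a0] at h1
    simp at h1
  · rintro rfl
    unfold rz at h1
    rw [M.a1] at h1
    simp at h1

lemma ty_iff (M : Fam q v0 v1 e0 a f) (δ δ' : D → Bool) {w : V} (h : Ty (rz a) (f δ) w) :
    Ty (rz a) (f δ') w := by
  obtain ⟨h0, h1⟩ := M.ty_ne h
  refine ⟨h.1, h.2.1, ?_⟩
  intro y hy
  rw [M.snd_eq δ' δ] at hy
  rw [M.fst_eq δ' δ h0 h1]
  exact h.2.2 y hy

lemma val_sum {φ : Und} (hφ : φ.Inv) (hst : Star φ) [Finite V] [Finite E] [Fintype D]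
    (M : Fam q v0 v1 e0 a f) : ∑ δ : D → Bool, val φ (fun y => (f δ y).1) = 0 := by
  apply star_val hφ hst q M.inj M.ne e0 M.q0
  · intro δ d
    rw [M.fq]
  · intro δ
    rw [M.ft]
  · intro δ
    rw [M.ff]
  · intro y h1 h2
    obtain ⟨p, h3, h4, h5⟩ := M.rest y h1 h2
    exact ⟨p.1, h3, h4, fun δ => by rw [h5]⟩
  · intro δ δ' x
    obtain ⟨p, _, h⟩ := M.legs x
    rw [h, h]

lemma lp_sum {φ : Und} (hφ : φ.Inv) (hst : Star φ) [Finite V] [Finite E] [Fintype D]
    (M : Fam q v0 v1 e0 a f) {w : V} (h0 : w ≠ v0) (h1 : w ≠ v1) :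
    ∑ δ : D → Bool, val φ (H387.lp (fun y => (f δ y).1) w) = 0 := by
  apply star_val hφ hst (fun d => (some (q d).1, (q d).2)) ?_ M.ne (some e0)
  · intro d h
    exact M.q0 d (Option.some_injective _ h)
  · intro δ d
    show (f δ (inl ((q d).1, (q d).2))).1 = _
    rw [M.fq]
  · intro δ
    show (f δ (inl (e0, true))).1 = _
    rw [M.ft]
  · intro δ
    show (f δ (inl (e0, false))).1 = _
    rw [M.ff]
  · rintro ⟨_ | e, b⟩ h2 h3
    · exact ⟨w, h0, h1, fun δ => rfl⟩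
    · obtain ⟨p, h4, h5, h6⟩ := M.rest (e, b) (by
        rintro ⟨d, hd⟩
        apply h2
        refine ⟨d, ?_⟩
        dsimp only
        rw [hd]) (fun h => h3 (congrArg some h))
      refine ⟨p.1, h4, h5, fun δ => ?_⟩
      show (f δ (inl (e, b))).1 = _
      rw [h6]
  · intro δ δ' x
    obtain ⟨p, _, h⟩ := M.legs x
    show (f δ (inr x)).1 = (f δ' (inr x)).1
    rw [h, h]
  · intro d d' h
    simp only [Prod.mk.injEq, Option.some.injEq] at h
    exact M.inj (Prod.ext h.1 h.2)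

lemma db_sum {φ : Und} (hφ : φ.Inv) (hst : Star φ) [Finite V] [Finite E] [Fintype D]
    (M : Fam q v0 v1 e0 a f) {w : V} (h0 : w ≠ v0) (h1 : w ≠ v1)
    (S : Set ((E × Bool) ⊕ LL)) (hS : ∀ δ, ∀ y ∈ S, (f δ y).1 = w) :
    ∑ δ : D → Bool, val φ (db (fun y => (f δ y).1) w S) = 0 := by
  have hq : ∀ d, inl (q d) ∉ S := by
    intro d hd
    have := hS (fun _ => false) _ hd
    rw [M.fq] at this
    exact h0 this.symm
  have he : ∀ b, inl (e0, b) ∉ S := by
    intro b hd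
    have := hS (fun _ => false) _ hd
    cases b
    · rw [M.ff] at this
      exact h0 this.symm
    · rw [M.ft] at this
      exact h1 this.symm
  have e1 : ∀ δ e b, db (fun y => (f δ y).1) w S (inl (inl e, b)) =
      if inl (e, b) ∈ S then none else some (f δ (inl (e, b))).1 := fun _ _ _ => rfl
  have e2 : ∀ δ x, db (fun y => (f δ y).1) w S (inr x) =
      if inr x ∈ S then none else some (f δ (inr x)).1 := fun _ _ => rfl
  apply star_val hφ hst (fun d => (inl (q d).1, (q d).2)) ?_ (v0 := some v0) (v1 := some v1)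
    (fun h => M.ne (Option.some_injective _ h)) (inl e0)
  · intro d h
    exact M.q0 d (inl.inj h)
  · intro δ d
    rw [e1, if_neg (hq d), M.fq]
    dsimp only
    split_ifs <;> rfl
  · intro δ
    rw [e1, if_neg (he _), M.ft]
  · intro δ
    rw [e1, if_neg (he _), M.ff]
  · rintro ⟨e | b', b⟩ h2 h3
    · by_cases h4 : inl (e, b) ∈ S
      · refine ⟨none, by simp, by simp, fun δ => ?_⟩
        rw [e1, if_pos h4]
      · obtain ⟨p, h5, h6, h7⟩ := M.rest (e, b) (by
          rintro ⟨d, hd⟩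
          apply h2
          refine ⟨d, ?_⟩
          dsimp only
          rw [hd]) (fun h => h3 (congrArg inl h))
        refine ⟨some p.1, fun h => h5 (Option.some_injective _ h),
          fun h => h6 (Option.some_injective _ h), fun δ => ?_⟩
        rw [e1, if_neg h4, h7]
    · cases b
      · exact ⟨none, by simp, by simp, fun δ => rfl⟩
      · exact ⟨some w, fun h => h0 (Option.some_injective _ h),
          fun h => h1 (Option.some_injective _ h), fun δ => rfl⟩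
  · intro δ δ' x
    obtain ⟨p, _, h⟩ := M.legs x
    rw [e2, e2, h, h]
  · intro d d' h
    simp only [Prod.mk.injEq, inl.injEq] at h
    exact M.inj (Prod.ext h.1 h.2)

/-- `(*)` for `G`. -/
theorem sum_G {φ : Und} (hφ : φ.Inv) (hst : Star φ) [Finite V] [Finite E] [Fintype D]
    (M : Fam q v0 v1 e0 a f) : ∑ δ : D → Bool, G φ V E a (f δ) = 0 := by
  set δ0 : D → Bool := fun _ => false
  by_cases hv : Q.Valid a (f δ0) 2 9
  swap
  · apply Finset.sum_eq_zero
    intro δ _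
    exact G_invalid (fun h => hv (M.valid δ δ0 h))
  have e1 : ∀ δ, G φ V E a (f δ) = H387.zfac a (f δ0) * H387.G0 φ (rz a) (f δ) := by
    intro δ
    rw [G_of_valid (M.valid δ0 δ hv), M.zfac_eq δ δ0]
  rw [Finset.sum_congr rfl fun δ _ => e1 δ, ← Finset.mul_sum]
  have key : ∑ δ : D → Bool, H387.G0 φ (rz a) (f δ) = 0 := by
    by_cases h1 : Ty1 (rz a) (f δ0)
    · rw [Finset.sum_congr rfl fun δ _ => G0_ty1 ((M.ty1_iff δ0 δ).1 h1)]
      exact M.val_sum hφ hst
    by_cases h2 : ∃ w, Ty (rz a) (f δ0) w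
    swap
    · apply Finset.sum_eq_zero
      intro δ _
      by_contra h3
      rcases G0_ne h3 with ⟨h4, _⟩ | ⟨w, h4, _⟩
      · exact h1 ((M.ty1_iff δ δ0).1 h4)
      · exact h2 ⟨w, M.ty_iff δ δ0 h4⟩
    obtain ⟨w, hw⟩ := h2
    obtain ⟨h0, h1⟩ := M.ty_ne hw
    rw [Finset.sum_congr rfl fun δ _ => G0_ty (M.ty_iff δ0 δ hw)]
    unfold brk
    have c1 : ∀ δ, ∑ᶠ y, (f δ y).2 = ∑ᶠ y, (f δ0 y).2 := by
      intro δ
      apply finsum_congr
      intro y
      exact M.snd_eq _ _ _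
    have c2 : ∀ δ, OnL (f δ) ↔ OnL (f δ0) := by
      intro δ
      unfold OnL
      refine and_congr (forall_congr' fun y => ?_) (forall_congr' fun x => ?_)
      · rw [M.snd_eq δ δ0]
      · rw [M.snd_eq δ δ0]
    have c3 : ∀ δ S, Spl (f δ) w S ↔ Spl (f δ0) w S := by
      intro δ S
      unfold Spl
      refine and_congr (forall_congr' fun y => ?_) (forall_congr' fun x => ?_)
      · rw [M.fst_eq δ δ0 h0 h1]
      · rw [M.fst_eq δ δ0 h0 h1, M.snd_eq δ δ0]
    simp only [c1, c2, c3]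
    rw [Finset.sum_add_distrib, Finset.sum_add_distrib]
    have s1 : ∑ δ : D → Bool, (if (rz a w).2 = {1} ∧ ∑ᶠ y, (f δ0 y).2 = 0 then
        (Q.nv (f δ) w : ℚ) / 24 * val φ (H387.lp (fun y => (f δ y).1) w) else 0) = 0 := by
      split_ifs with hc
      · have e2 : ∀ δ, (Q.nv (f δ) w : ℚ) / 24 * val φ (H387.lp (fun y => (f δ y).1) w) =
            (Q.nv (f δ0) w : ℚ) / 24 * val φ (H387.lp (fun y => (f δ y).1) w) := by
          intro δ
          rw [M.nv_eq δ δ0 h0 h1]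
        rw [Finset.sum_congr rfl fun δ _ => e2 δ, ← Finset.mul_sum, M.lp_sum hφ hst h0 h1,
          mul_zero]
      · exact Finset.sum_const_zero
    have s2 : ∑ δ : D → Bool, (if (rz a w).2 = 0 ∧ ∑ᶠ y, (f δ0 y).2 = 1 then
        1 / 24 * val φ (H387.lp (fun y => (f δ y).1) w) else 0) = 0 := by
      split_ifs with hc
      · rw [← Finset.mul_sum, M.lp_sum hφ hst h0 h1, mul_zero]
      · exact Finset.sum_const_zero
    have s3 : ∑ δ : D → Bool, (if (rz a w).2 = 0 ∧ ∑ᶠ y, (f δ0 y).2 = 2 ∧ OnL (f δ0) then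
        1 / 24 * ∑ᶠ (S) (_ : Spl (f δ0) w S), val φ (db (fun y => (f δ y).1) w S) else 0) = 0 := by
      split_ifs with hc
      · rw [← Finset.mul_sum]
        have : Fintype V := Fintype.ofFinite V
        have : Fintype E := Fintype.ofFinite E
        simp only [finsum_eq_sum_of_fintype]
        rw [Finset.sum_comm]
        rw [Finset.sum_eq_zero, mul_zero]
        intro S _
        simp only [finsum_eq_if]
        split_ifs with hS
        · apply M.db_sum hφ hst h0 h1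
          intro δ y hy
          exact ((c3 δ S).2 hS).1 y hy
        · exact Finset.sum_const_zero
      · exact Finset.sum_const_zero
    rw [s1, s2, s3]
    ring
  rw [key, mul_zero]

end Fam

end Vale.Agent.P273.D14.H18
end
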