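import Vale.Agent.P273.D14.H18.EvalOne
import Vale.Agent.P273.D14.H18.StarG
import Vale.Agent.P273.D14.H462.Red

/-!
Relations of degree one: common lemmas.
-/

noncomputable section
namespace Vale.Agent.P273.D14.H18
open Sum Vale.Agent.P273 Vale.Agent.P273.D14.H387 Vale.Agent.P273.C1.R3B Vale.Agent.P273.C1.R1B
open scoped Classical

variable {V E R T L N : Type}

/-- The relation of degree one in an environment. -/
theorem rl_one [Fintype L] {s : Q.Fn N} {g d : ℕ} (hs : Q.Tr g d s) (W : Env R T L N) {γ : ℕ}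
    (hst : 2 < 2 * γ + Fintype.card L) {A : L → ℕ} (hA : Even (γ + ∑ x, A x))
    (h1 : ∀ x, A x ≤ 1) :
    rl s W.dec W.use W.b A γ 1 = 60 * Mv.sg s (W.graft (pt1 γ {1} (fun _ => 0))) +
      ∑ x, (if A x = 0 then -60 else 84) *
        Mv.sg s (W.graft (pt1 γ 0 (fun y => if y = x then 1 else 0))) +
      (if γ = 0 then 0 else -6) * Mv.sg s (W.graft (lpG γ L)) +
      ∑ h : Fin (γ + 1), ∑ ε : L → Bool, ckG γ h A ε 30 (-42) *
        Mv.sg s (W.graft (pt2G γ h ε true)) := by
  rw [rl_eq]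
  refine eval_one' hst hA h1 (fun p => Mv.sg s (W.graft p.2.2)) ?_
  intro h ε
  exact Mv.inv_graft hs W _ _ _ _ (pt2G γ h ε true).dec (pt2G γ h ε false).hf
    (pt2G γ h ε true).hf id (fun y => (y.1, !y.2)) Function.bijective_id
    ⟨by
      rintro ⟨e, s⟩ ⟨e', s'⟩ h
      simp only [Prod.mk.injEq, Bool.not_inj_iff] at h
      rw [h.1, h.2], by
      rintro ⟨e, s⟩
      exact ⟨(e, !s), by simp⟩⟩ (fun e => rfl) (by
    rintro (⟨e, s⟩ | x)
    · cases s <;> simp [pt2G]
    · simp [pt2G])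

/-- `G` at a rational vertex. -/
lemma sp_rat {φ : Und} {a : V → ℕ × Multiset ℕ} {f : (E × Bool) ⊕ LL → V × ℕ}
    (h : G φ V E a f ≠ 0) {v : V} (hv : (a v).1 = 0) :
    (a v).2.sum = 0 ∧ (∀ y, (f y).1 = v → (f y).2 = 0) ∧ ∀ s, nl f s v = 1 := by
  have hval : Q.Valid a f 2 9 := by
    by_contra h1
    exact h (G_invalid h1)
  have h0 : H387.G0 φ (rz a) f ≠ 0 := by
    intro h1
    rw [G_of_valid hval, h1, mul_zero] at h
    exact h rfl
  have key : (a v).2.sum = 0 ∧ (∀ y, (f y).1 = v → (f y).2 = 0) := by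
    rcases G0_ne h0 with ⟨h1, h2⟩ | ⟨w, h1, h2⟩
    · refine ⟨?_, fun y _ => h1.2 y⟩
      rw [← rz_sum, h1.1 v]
      rfl
    · have hvw : v ≠ w := by
        rintro rfl
        have := h1.1
        change (a v).1 = 1 at this
        omega
      refine ⟨?_, ?_⟩
      · rw [← rz_sum, h1.2.1 v hvw]
        rfl
      · intro y hy
        by_contra h3
        exact hvw (hy.symm.trans (h1.2.2 y h3))
  refine ⟨key.1, key.2, ?_⟩
  have hdd : dd a f v = 0 := by
    apply dd_zero key.1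
    intro y hy h3
    exact hy (key.2 y h3)
  obtain ⟨h1, h2, h3, h4⟩ := sp_G h v
  rw [hdd, hv] at h3
  intro s
  cases s <;> omega

lemma nl_two {f : (E × Bool) ⊕ LL → V × ℕ} {s : Bool} {v : V} {i j : Fin 8} (hij : i ≠ j)
    (hi : (f (inr (i, s))).1 = v) (hj : (f (inr (j, s))).1 = v) : 2 ≤ nl f s v := by
  unfold nl
  rw [Nat.card_eq_fintype_card, Fintype.card_subtype, ← Finset.card_pair hij]
  apply Finset.card_le_card
  intro k hk
  simp only [Finset.mem_insert, Finset.mem_singleton] at hk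
  simp only [Finset.mem_filter, Finset.mem_univ, true_and]
  rcases hk with rfl | rfl
  · exact hi
  · exact hj

lemma sum_fiber [Fintype L] (P : L → Prop) (F : (L → Bool) → ℚ)
    (h : ∀ τ : L → Bool, ∑ δ : {x // ¬ P x} → Bool,
      F (fun x => if h : P x then τ x else δ ⟨x, h⟩) = 0) : ∑ ε, F ε = 0 := by
  rw [← (Equiv.piEquivPiSubtypeProd P (fun _ => Bool)).symm.sum_comp, Fintype.sum_prod_type]
  apply Finset.sum_eq_zero
  intro τ _
  rw [← h (fun x => if hx : P x then τ ⟨x, hx⟩ else true)]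
  apply Finset.sum_congr rfl
  intro δ _
  congr 1
  funext x
  show (if h : P x then τ ⟨x, h⟩ else δ ⟨x, h⟩) = _
  split_ifs <;> rfl

section two

variable {u : (T × Bool) ⊕ LL → L ⊕ R × ℕ} {i : Bool → Bool → Fin 8} {x : Bool → Bool → L}

lemma two_inj (hu : ∀ y z x, u y = inl x → u z = inl x → y = z) (hT : H462.Two u i x)
    {c t c' t' : Bool} (h : x c t = x c' t') : c = c' ∧ t = t' := by
  have h1 := hu _ _ _ (hT.pos c t) (by rw [h]; exact hT.pos c' t')
  simp only [inr.injEq, Prod.mk.injEq] at h1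
  obtain ⟨h2, h3⟩ := h1
  subst h3
  refine ⟨rfl, ?_⟩
  cases t <;> cases t'
  · rfl
  · exact absurd h2.symm (hT.ne c)
  · exact absurd h2 (hT.ne c)
  · rfl

lemma two_leg (hT : H462.Two u i x) (z : LL) (l : L) (h : u (inr z) = inl l) :
    ∃ c t, z = (i c t, c) ∧ l = x c t := by
  obtain ⟨j, c⟩ := z
  refine ⟨c, ?_⟩
  by_cases h1 : j = i c true
  · refine ⟨true, by rw [h1], ?_⟩
    have := hT.pos c true
    rw [← h1, h] at this
    exact inl.inj this
  by_cases h2 : j = i c false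
  · refine ⟨false, by rw [h2], ?_⟩
    have := hT.pos c false
    rw [← h2, h] at this
    exact inl.inj this
  obtain ⟨p, hp⟩ := hT.rest c j h1 h2
  rw [h] at hp
  cases hp

lemma two_card [Fintype L] (hu : ∀ y z x, u y = inl x → u z = inl x → y = z)
    (hT : H462.Two u i x) : 4 ≤ Fintype.card L := by
  have h1 : Function.Injective (fun p : Bool × Bool => x p.1 p.2) := by
    rintro ⟨c, t⟩ ⟨c', t'⟩ h
    obtain ⟨h2, h3⟩ := two_inj hu hT h
    exact Prod.ext h2 h3
  have := Fintype.card_le_of_injective _ h1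
  simpa using this

/-- The positions that are not taken by a leg are taken by half-edges. -/
lemma two_half (hT : H462.Two u i x) (hall : ∀ z, inl z ∈ Set.range u)
    (z : L) (hz : ¬ ∃ c t, z = x c t) : ∃ y : T × Bool, u (inl y) = inl z := by
  obtain ⟨y | y, hy⟩ := hall z
  · exact ⟨y, hy⟩
  · obtain ⟨c, t, _, h⟩ := two_leg hT y z hy
    exact absurd ⟨c, t, h⟩ hz

end two

end Vale.Agent.P273.D14.H18
end
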