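import Vale.Agent.P273.Bdl.B1

/-!
Evaluation of the Pixton relation of degree one, in any genus, with any finite set of legs.
-/

noncomputable section
namespace Vale.Agent.P273.D14.H18
open Sum Vale.Agent.P273
open scoped Classical
open Alg

variable {V E L M : Type}

/-- The graph with one vertex, of genus `γ - 1`, and one loop. -/
def lpG (γ : ℕ) (L : Type) : Gr (Fin 1) (Fin 1) L :=
  ⟨fun _ => (γ - 1, 0), fun _ => (0, 0)⟩

/-- The graph with two vertices and one edge: the vertex `1` has genus `h` and carries the legs `x`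
with `ε x`, the vertex `0` has genus `γ - h` and carries the other legs. -/
def pt2G (γ h : ℕ) (ε : L → Bool) (o : Bool) : Gr (Fin 2) (Fin 1) L :=
  ⟨fun v => (if v = 1 then h else γ - h, 0), Sum.elim (fun y => (if y.2 = o then 1 else 0, 0))
    (fun x => (if ε x then 1 else 0, 0))⟩

/-- the labelled graphs that occur in degree one -/
def formG (γ : ℕ) : Option M ⊕ (Unit ⊕ (Fin (γ + 1) × (M → Bool) × Bool)) →
    Σ k m : ℕ, Gr (Fin k) (Fin m) M
  | inl none => ⟨1, 0, pt1 γ {1} (fun _ => 0)⟩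
  | inl (some x) => ⟨1, 0, pt1 γ 0 (fun y => if y = x then 1 else 0)⟩
  | inr (inl _) => ⟨1, 1, lpG γ M⟩
  | inr (inr p) => ⟨2, 1, pt2G γ p.1 p.2.1 p.2.2⟩

lemma pt2G_inj {γ h h' : ℕ} {ε ε' : L → Bool} {o o' : Bool}
    (hh : pt2G γ h ε o = pt2G γ h' ε' o') : h = h' ∧ ε = ε' ∧ o = o' := by
  have h0 : (pt2G γ h ε o).dec 1 = (pt2G γ h' ε' o').dec 1 := by rw [hh]
  have h1 : (pt2G γ h ε o).hf (inl (0, true)) = (pt2G γ h' ε' o').hf (inl (0, true)) := by rw [hh]
  have h2 : ∀ x, (pt2G γ h ε o).hf (inr x) = (pt2G γ h' ε' o').hf (inr x) := by intro x; rw [hh]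
  refine ⟨?_, ?_, ?_⟩
  · have := congrArg Prod.fst h0
    simpa [pt2G] using this
  · funext x
    have h3 : ((if ε x then 1 else 0 : Fin 2), 0) = (((if ε' x then 1 else 0 : Fin 2), 0) :
      Fin 2 × ℕ) := h2 x
    cases h4 : ε x <;> cases h5 : ε' x <;> simp [h4, h5] at h3 ⊢
  · have h3 : ((if true = o then 1 else 0 : Fin 2), 0) = (((if true = o' then 1 else 0 : Fin 2), 0) :
      Fin 2 × ℕ) := h1
    cases o <;> cases o' <;> simp at h3 ⊢

lemma formG_inj (γ : ℕ) : (formG (M := M) γ).Injective := by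
  rintro ((_ | x) | (_ | ⟨h, ε, o⟩)) ((_ | x') | (_ | ⟨h', ε', o'⟩)) hh
  · rfl
  · exfalso
    simp only [formG, Sigma.mk.injEq, heq_eq_eq, true_and] at hh
    have := (pt1_inj hh).2.1
    simp at this
  · simp [formG] at hh
  · simp [formG] at hh
  · exfalso
    simp only [formG, Sigma.mk.injEq, heq_eq_eq, true_and] at hh
    have := (pt1_inj hh).2.1
    simp at this
  · simp only [formG, Sigma.mk.injEq, heq_eq_eq, true_and] at hh
    have h2 := congrFun (pt1_inj hh).2.2 x
    simp only [if_true] at h2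
    by_cases hx : x = x'
    · rw [hx]
    · rw [if_neg hx] at h2
      exact absurd h2 one_ne_zero
  · simp [formG] at hh
  · simp [formG] at hh
  · simp [formG] at hh
  · simp [formG] at hh
  · rfl
  · simp [formG] at hh
  · simp [formG] at hh
  · simp [formG] at hh
  · simp [formG] at hh
  · simp only [formG, Sigma.mk.injEq, heq_eq_eq, true_and] at hh
    obtain ⟨h0, h1, h2⟩ := pt2G_inj hh
    have : h = h' := Fin.ext h0
    rw [this, h1, h2]

lemma mul_zero_of {K : Multiset ℕ} (h0 : (0 : ℕ) ∉ K) (hs : K.sum = 0) : K = 0 := by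
  apply Multiset.eq_zero_of_forall_notMem
  intro c hc
  have := Multiset.single_le_sum (fun _ _ => Nat.zero_le _) c hc
  have h10 : c = 0 := by omega
  subst h10
  exact h0 hc

lemma mul_one_of {K : Multiset ℕ} (h0 : (0 : ℕ) ∉ K) (hs : K.sum = 1) : K = {1} := by
  obtain ⟨c, hc⟩ : ∃ c, c ∈ K := by
    apply Multiset.exists_mem_of_ne_zero
    intro h
    rw [h] at hs
    simp at hs
  obtain ⟨t, ht⟩ := Multiset.exists_cons_of_mem hc
  have hc0 : c ≠ 0 := by
    intro h
    subst h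
    exact h0 hc
  have h7 := hs
  rw [ht, Multiset.sum_cons] at h7
  have h12 : t = 0 := by
    apply mul_zero_of
    · intro h
      exact h0 (by rw [ht]; exact Multiset.mem_cons_of_mem h)
    · omega
  rw [h12, Multiset.sum_zero] at h7
  rw [ht, h12, show c = 1 by omega]
  rfl

lemma formG_one [Fintype M] {γ : ℕ} {a : M → ℕ} (G : Gr (Fin 1) (Fin 0) M)
    (h : wt G γ a 1 ≠ 0) :
    (⟨1, 0, G⟩ : Σ k m : ℕ, Gr (Fin k) (Fin m) M) ∈ Set.range (formG γ) := by
  obtain ⟨h1, h2, h3⟩ := wt_ne_zero h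
  rw [eq_pt1 G] at h h2
  obtain ⟨h4, h5⟩ := wt_pt1_ne h
  rw [finsum_eq_sum_of_fintype] at h5
  rcases Nat.eq_zero_or_pos (G.dec 0).2.sum with h6 | h6
  · rw [h6, zero_add] at h5
    have h7 : ∃ x, (G.hf (inr x)).2 ≠ 0 := by
      by_contra hcon
      push Not at hcon
      rw [Finset.sum_eq_zero (fun x _ => hcon x)] at h5
      exact absurd h5 (by norm_num)
    obtain ⟨x, hx⟩ := h7
    have h8 := Finset.add_sum_erase Finset.univ (fun x => (G.hf (inr x)).2) (Finset.mem_univ x)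
    refine ⟨inl (some x), ?_⟩
    rw [eq_pt1 G]
    have h9 : (G.dec 0).2 = 0 := mul_zero_of (h3 0) h6
    have h10 : (fun x => (G.hf (inr x)).2) = fun y => if y = x then 1 else 0 := by
      funext y
      by_cases hy : y = x
      · rw [if_pos hy, hy]; omega
      · rw [if_neg hy]
        have h11 : ∑ x ∈ Finset.univ.erase x, (G.hf (inr x)).2 = 0 := by omega
        exact (Finset.sum_eq_zero_iff.mp h11) y (Finset.mem_erase.mpr ⟨hy, Finset.mem_univ y⟩)
    rw [h4, h9, h10]
    rfl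
  · have h7 : (G.dec 0).2.sum = 1 := by omega
    have h8 : ∑ x, (G.hf (inr x)).2 = 0 := by omega
    refine ⟨inl none, ?_⟩
    rw [eq_pt1 G]
    have h10 : (fun x => (G.hf (inr x)).2) = fun y => 0 := by
      funext y
      exact (Finset.sum_eq_zero_iff.mp h8) y (Finset.mem_univ y)
    have h9 : (G.dec 0).2 = {1} := mul_one_of (h3 0) h7
    rw [h4, h9, h10]
    rfl

/-- In degree one a graph with an edge has no decorations. -/
lemma plain_of_deg {k : ℕ} [Fintype M] {γ : ℕ} {a : M → ℕ} (G : Gr (Fin k) (Fin 1) M)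
    (h : wt G γ a 1 ≠ 0) : (∀ v, (G.dec v).2 = 0) ∧ (∀ y, (G.hf y).2 = 0) ∧
      ∑ v, (G.dec v).1 + 2 = γ + k := by
  obtain ⟨h1, h2, h3⟩ := wt_ne_zero h
  obtain ⟨_, hc, hg, _⟩ := h1
  unfold Gr.deg at h2
  rw [finsum_eq_sum_of_fintype] at hg h2
  rw [finsum_eq_sum_of_fintype] at h2
  have e1 : Nat.card (Fin 1) = 1 := by simp
  have e2 : Nat.card (Fin k) = k := by simp
  rw [e1] at hg h2
  rw [e2] at hg
  have hk' : ∑ v, (G.dec v).2.sum = 0 := by omega
  have hp' : ∑ y, (G.hf y).2 = 0 := by omega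
  refine ⟨?_, ?_, by omega⟩
  · intro v
    exact mul_zero_of (h3 v) ((Finset.sum_eq_zero_iff.mp hk') v (Finset.mem_univ v))
  · exact fun y => (Finset.sum_eq_zero_iff.mp hp') y (Finset.mem_univ y)

lemma formG_loop [Fintype M] {γ : ℕ} {a : M → ℕ} (G : Gr (Fin 1) (Fin 1) M)
    (h : wt G γ a 1 ≠ 0) :
    (⟨1, 1, G⟩ : Σ k m : ℕ, Gr (Fin k) (Fin m) M) ∈ Set.range (formG γ) := by
  obtain ⟨h1, h2, h3⟩ := plain_of_deg G h
  refine ⟨inr (inl ()), ?_⟩
  simp only [formG, Sigma.mk.injEq, heq_eq_eq, true_and]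
  apply Gr.ext'
  · intro v
    rw [Subsingleton.elim v 0]
    rw [Fin.sum_univ_one] at h3
    apply Prod.ext
    · show γ - 1 = (G.dec 0).1
      omega
    · exact (h1 0).symm
  · intro y
    apply Prod.ext
    · exact Subsingleton.elim _ _
    · exact (h2 y).symm

lemma formG_two [Fintype M] {γ : ℕ} {a : M → ℕ} (G : Gr (Fin 2) (Fin 1) M)
    (h : wt G γ a 1 ≠ 0) :
    (⟨2, 1, G⟩ : Σ k m : ℕ, Gr (Fin k) (Fin m) M) ∈ Set.range (formG γ) := by
  obtain ⟨hk, hpsi, hg⟩ := plain_of_deg G h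
  rw [Fin.sum_univ_two] at hg
  obtain ⟨⟨_, hc, _, _⟩, _⟩ := wt_ne_zero h
  have h5 := hc {1}
  have h6 : ¬ (({1} : Set (Fin 2)) = ∅ ∨ ({1} : Set (Fin 2)) = Set.univ) := by
    rintro (h | h)
    · exact Set.singleton_ne_empty _ h
    · have : (0 : Fin 2) ∈ ({1} : Set (Fin 2)) := by rw [h]; trivial
      simp at this
  have h7 : ¬ ((G.hf (inl (0, true))).1 = 1 ↔ (G.hf (inl (0, false))).1 = 1) := by
    intro h
    apply h6
    apply h5
    intro e
    rw [Subsingleton.elim e 0]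
    simpa using h
  refine ⟨inr (inr (⟨(G.dec 1).1, by omega⟩, fun x => decide ((G.hf (inr x)).1 = 1),
    decide ((G.hf (inl (0, true))).1 = 1))), ?_⟩
  simp only [formG, Sigma.mk.injEq, heq_eq_eq, true_and]
  apply Gr.ext'
  · intro v
    apply Prod.ext
    · show (if v = 1 then (G.dec 1).1 else γ - (G.dec 1).1) = (G.dec v).1
      have h01 : ∀ i : Fin 2, i ≠ 1 → i = 0 := by decide
      split_ifs with hv
      · rw [hv]
      · rw [h01 v hv]
        omega
    · exact (hk v).symm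
  · have h01 : ∀ i : Fin 2, i ≠ 1 → i = 0 := by decide
    rintro (⟨e, s⟩ | x)
    · rw [Subsingleton.elim e 0]
      apply Prod.ext
      · by_cases h8 : (G.hf (inl (0, true))).1 = 1
        · have h9 : ¬ (G.hf (inl (0, false))).1 = 1 := fun h => h7 ⟨fun _ => h, fun _ => h8⟩
          cases s
          · simp [pt2G, h8, h01 _ h9]
          · simp [pt2G, h8]
        · have h9 : (G.hf (inl (0, false))).1 = 1 := by
            by_contra h
            exact h7 ⟨fun h' => absurd h' h8, fun h' => absurd h' h⟩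
          cases s
          · simp [pt2G, h8, h9]
          · simp [pt2G, h01 _ h8]
      · rw [hpsi]
        rfl
    · apply Prod.ext
      · by_cases h8 : (G.hf (inr x)).1 = 1
        · simp [pt2G, h8]
        · simp only [pt2G, decide_eq_true_eq, elim_inr, h01 _ h8, zero_ne_one, ↓reduceIte]
      · rw [hpsi]
        rfl

lemma formG_all [Fintype M] {γ : ℕ} {a : M → ℕ} (p : Σ k m : ℕ, Gr (Fin k) (Fin m) M)
    (h : wt p.2.2 γ a 1 ≠ 0) : p ∈ Set.range (formG γ) := by
  obtain ⟨k, m, G⟩ := p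
  dsimp only at h
  obtain ⟨h1, h2, h3⟩ := wt_ne_zero h
  have h4 := h1.conn_card
  obtain ⟨⟨v0⟩, _, _, _⟩ := h1
  have hb := (wt_bound h).2
  rw [Nat.card_eq_fintype_card, Nat.card_eq_fintype_card, Fintype.card_fin, Fintype.card_fin]
    at h4
  have hk : 0 < k := v0.pos
  obtain ⟨rfl, rfl⟩ | ⟨rfl, rfl⟩ | ⟨rfl, rfl⟩ :
    (k = 1 ∧ m = 0) ∨ (k = 1 ∧ m = 1) ∨ (k = 2 ∧ m = 1) := by omega
  · exact formG_one G h
  · exact formG_loop G h
  · exact formG_two G h

/-- the relation of degree one as a sum over the forms -/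
theorem sum_formG [Fintype M] (γ : ℕ) {a : M → ℕ}
    (φ : (Σ k m : ℕ, Gr (Fin k) (Fin m) M) → ℚ) :
    ∑ p ∈ supp γ a 1, wt p.2.2 γ a 1 * φ p =
      ∑ z, wt (formG γ z).2.2 γ a 1 * φ (formG γ z) := by
  rw [← finsum_eq_sum_of_support_subset (s := supp γ a 1) (fun p => wt p.2.2 γ a 1 * φ p),
    ← finsum_eq_sum_of_fintype]
  · rw [← finsum_mem_range (f := fun p => wt p.2.2 γ a 1 * φ p) (formG_inj γ)]
    apply finsum_congr
    intro p
    rw [finsum_eq_if]
    split_ifs with h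
    · rfl
    · by_cases h0 : wt p.2.2 γ a 1 = 0
      · rw [h0, zero_mul]
      · exact absurd (formG_all p h0) h
  · intro p hp
    by_contra hcon
    apply hp
    dsimp only
    rw [not_mem_supp hcon, zero_mul]

/-! ### the weights -/

/-- the forms with one vertex -/
lemma wt_none [Fintype M] {γ : ℕ} (hst : 2 < 2 * γ + Fintype.card M) (a : M → ℕ)
    (ha : Even (γ + ∑ x, a x)) : wt (pt1 γ {1} (fun _ : M => 0)) γ a 1 = 60 := by
  rw [wt_pt1 γ {1} (fun _ => 0) a 1 (by rwa [Nat.card_eq_fintype_card])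
    (by simp) (by
      rw [finsum_eq_sum_of_fintype]
      have : γ + 1 + 1 + ∑ x, a x = (γ + ∑ x, a x) + 2 := by ring
      rw [this]
      exact ha.add even_two)]
  rw [finprod_eq_prod_of_fintype, Finset.prod_eq_one (fun x _ => by rw [B_at_zero, one_pow])]
  simp only [kapF, Multiset.map_singleton, pow_one, B_zero_one, mul_one, sub_neg_eq_add, zero_add, Multiset.prod_singleton, Multiset.toFinset_singleton, Multiset.nodup_singleton, Finset.prod_singleton, Multiset.mem_singleton, Multiset.count_eq_one_of_mem, Nat.factorial_one, Nat.cast_one, div_one]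

lemma wt_some [Fintype M] {γ : ℕ} (hst : 2 < 2 * γ + Fintype.card M) (a : M → ℕ)
    (ha : Even (γ + ∑ x, a x)) (h1 : ∀ x, a x ≤ 1) (x : M) :
    wt (pt1 γ 0 (fun y : M => if y = x then 1 else 0)) γ a 1 = if a x = 0 then -60 else 84 := by
  rw [wt_pt1 γ 0 _ a 1 (by rwa [Nat.card_eq_fintype_card])
    (by rw [finsum_eq_sum_of_fintype]; simp only [Multiset.sum_zero, Finset.sum_ite_eq', Finset.mem_univ, ↓reduceIte, zero_add])
    (by
      rw [finsum_eq_sum_of_fintype]
      have : γ + 1 + 1 + ∑ x, a x = (γ + ∑ x, a x) + 2 := by ring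
      rw [this]
      exact ha.add even_two)]
  rw [finprod_eq_prod_of_fintype, Finset.prod_eq_single x]
  · rw [if_pos rfl]
    have := h1 x
    interval_cases h : a x
    · simp only [kapF, Multiset.map_zero, Multiset.prod_zero, Multiset.toFinset_zero, Multiset.notMem_zero, not_false_eq_true, Multiset.count_eq_zero_of_notMem, Nat.factorial_zero, Nat.cast_one, Finset.prod_const_one, ne_eq, one_ne_zero, div_self, B_zero_one, mul_one, mul_neg, one_mul, ↓reduceIte]
    · simp only [kapF, Multiset.map_zero, Multiset.prod_zero, Multiset.toFinset_zero, Multiset.notMem_zero, not_false_eq_true, Multiset.count_eq_zero_of_notMem, Nat.factorial_zero, Nat.cast_one, Finset.prod_const_one, ne_eq, one_ne_zero, div_self, B_one_one, one_pow, mul_one, one_mul, ↓reduceIte]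
  · intro y _ hy
    rw [if_neg hy, B_at_zero, one_pow]
  · intro h
    exact absurd (Finset.mem_univ x) h

lemma B_neg (a c : ℕ) (ζ : ℚ) : B a (-ζ) c = (-1) ^ (a + c) * B a ζ c := by
  unfold B
  rw [neg_pow ζ]
  ring

lemma edgeF_neg (ζ ξ : ℚ) (p q : ℕ) :
    edgeF (-ζ, p) (-ξ, q) = (-1) ^ (p + q) * edgeF (ζ, p) (ξ, q) := by
  unfold edgeF
  rw [Finset.mul_sum]
  apply Finset.sum_congr rfl
  intro j hj
  have hj' : j ≤ q := by
    have := Finset.mem_range.mp hj
    dsimp only at this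
    omega
  simp only [B_neg]
  obtain ⟨r, rfl⟩ := Nat.exists_eq_add_of_le hj'
  rw [Nat.add_sub_cancel_left]
  have e1 : (-1 : ℚ) ^ (0 + (p + 1 + j)) * (-1) ^ (1 + r) = (-1) ^ (p + (j + r)) := by
    rw [← pow_add, show 0 + (p + 1 + j) + (1 + r) = p + (j + r) + 2 by ring, pow_add]
    norm_num
  have e2 : (-1 : ℚ) ^ (1 + (p + 1 + j)) * (-1) ^ (0 + r) = (-1) ^ (p + (j + r)) := by
    rw [← pow_add, show 1 + (p + 1 + j) + (0 + r) = p + (j + r) + 2 by ring, pow_add]
    norm_num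
  linear_combination ((-1 : ℚ) ^ (j + 1) * B 0 ζ (p + 1 + j) * B 1 ξ r) * e1 +
    ((-1 : ℚ) ^ (j + 1) * B 1 ζ (p + 1 + j) * B 0 ξ r) * e2

/-- the effect of the change of all signs on a summand of the weight -/
lemma wsum_neg [Fintype V] [Fintype E] [Fintype M] (G : Gr V E M) (a : M → ℕ) (s : V → ℚ) :
    wsum G a (fun v => - s v) = (-1) ^ (∑ v, ((G.dec v).1 + 1) + ∑ v, (G.dec v).2.sum +
      ∑ y, (G.hf y).2 + ∑ x, a x) * wsum G a s := by
  unfold wsum
  simp only [finprod_eq_prod_of_fintype]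
  have e1 : ∀ v, (- s v) ^ ((G.dec v).1 + 1) * kapF (G.dec v).2 (- s v) =
      ((-1) ^ ((G.dec v).1 + 1) * (-1) ^ ((G.dec v).2.sum)) *
        (s v ^ ((G.dec v).1 + 1) * kapF (G.dec v).2 (s v)) := by
    intro v
    rw [kapF_sign _ (- s v), kapF_sign _ (s v), neg_pow (s v), neg_pow (s v)]
    ring
  have e2 : ∀ e, edgeF (- s (G.hf (inl (e, true))).1, (G.hf (inl (e, true))).2)
      (- s (G.hf (inl (e, false))).1, (G.hf (inl (e, false))).2) =
      ((-1) ^ (G.hf (inl (e, true))).2 * (-1) ^ (G.hf (inl (e, false))).2) *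
      edgeF (s (G.hf (inl (e, true))).1, (G.hf (inl (e, true))).2)
      (s (G.hf (inl (e, false))).1, (G.hf (inl (e, false))).2) := by
    intro e
    rw [edgeF_neg, pow_add]
  have e3 : ∀ x, B (a x) (- s (G.hf (inr x)).1) (G.hf (inr x)).2 =
      ((-1) ^ (a x) * (-1) ^ (G.hf (inr x)).2) * B (a x) (s (G.hf (inr x)).1) (G.hf (inr x)).2 := by
    intro x
    rw [B_neg, pow_add]
  rw [Finset.prod_congr rfl fun v _ => e1 v, Finset.prod_congr rfl fun v _ => e2 v,
    Finset.prod_congr rfl fun v _ => e3 v]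
  simp only [Finset.prod_mul_distrib, Finset.prod_pow_eq_pow_sum,
    Fintype.sum_sum_type (fun y => (G.hf y).2), Fintype.sum_prod_type]
  simp only [Fintype.sum_bool, Finset.sum_add_distrib, pow_add]
  ring

/-- the weights are zero in the wrong parity -/
theorem wt_odd [Finite V] [Finite E] [Fintype M] (G : Gr V E M) {γ d : ℕ} {a : M → ℕ}
    (ha : ¬ Even (γ + 1 + d + ∑ x, a x)) : wt G γ a d = 0 := by
  have := Fintype.ofFinite V
  have := Fintype.ofFinite E
  rw [wt_eq_wsum]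
  split_ifs with h
  swap
  · rfl
  obtain ⟨⟨_, _, h3, _⟩, h4⟩ := h
  unfold Gr.deg at h4
  rw [finsum_eq_sum_of_fintype] at h3 h4
  rw [finsum_eq_sum_of_fintype] at h4
  rw [finsum_eq_sum_of_fintype]
  have e1 : ∀ ζ : V → Bool, wsum G a (fun v => sg (!ζ v)) = - wsum G a (fun v => sg (ζ v)) := by
    intro ζ
    have e2 : (fun v => sg (!ζ v)) = fun v => - sg (ζ v) := by
      funext v
      cases ζ v <;> simp [sg]
    rw [e2, wsum_neg]
    have e3 : ¬ Even (∑ v, ((G.dec v).1 + 1) + ∑ v, (G.dec v).2.sum +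
      ∑ y, (G.hf y).2 + ∑ x, a x) := by
      intro hev
      apply ha
      rw [Finset.sum_add_distrib] at hev
      simp only [Finset.sum_const, Finset.card_univ, smul_eq_mul, mul_one] at hev
      rw [Nat.card_eq_fintype_card, Nat.card_eq_fintype_card] at h3
      rw [Nat.card_eq_fintype_card] at h4
      have e4 : γ + 1 + d + ∑ x, a x + 2 * Fintype.card V = (∑ v, (G.dec v).1 + Fintype.card V +
        ∑ v, (G.dec v).2.sum + ∑ y, (G.hf y).2 + ∑ x, a x) + 2 * (Fintype.card E + 1) := by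
        omega
      have e5 : Even (γ + 1 + d + ∑ x, a x + 2 * Fintype.card V) := by
        rw [e4]
        exact hev.add (even_two_mul _)
      exact (Nat.even_add.mp e5).mpr (even_two_mul _)
    rw [(Nat.not_even_iff_odd.mp e3).neg_one_pow]
    ring
  have e5 : ∑ ζ : V → Bool, (1 / 2 : ℚ) ^ (Nat.card E + 1) * wsum G a (fun v => sg (ζ v)) =
      ∑ ζ : V → Bool, (1 / 2 : ℚ) ^ (Nat.card E + 1) * wsum G a (fun v => sg (!ζ v)) := by
    let σ : (V → Bool) ≃ (V → Bool) := ⟨fun ζ v => !ζ v, fun ζ v => !ζ v,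
      fun ζ => by funext v; simp, fun ζ => by funext v; simp⟩
    exact (Equiv.sum_comp σ (fun ζ : V → Bool => (1 / 2 : ℚ) ^ (Nat.card E + 1) *
      wsum G a (fun v => sg (ζ v)))).symm
  have e6 : ∑ ζ : V → Bool, (1 / 2 : ℚ) ^ (Nat.card E + 1) * wsum G a (fun v => sg (!ζ v)) =
      - ∑ ζ : V → Bool, (1 / 2 : ℚ) ^ (Nat.card E + 1) * wsum G a (fun v => sg (ζ v)) := by
    rw [← Finset.sum_neg_distrib]
    apply Finset.sum_congr rfl
    intro ζ _
    rw [e1]
    ring
  linarith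

lemma stab_pt2G [Fintype M] {γ h : ℕ} (hh : h ≤ γ) {ε : M → Bool}
    (h1 : 1 < 2 * h + (Finset.univ.filter (fun x => ε x = true)).card)
    (h0 : 1 < 2 * (γ - h) + (Finset.univ.filter (fun x => ε x = false)).card) (o : Bool) :
    (pt2G γ h ε o).Stab γ := by
  refine ⟨⟨0⟩, ?_, ?_, ?_⟩
  · intro s hs
    have h1 := hs 0
    have h2 : (0 : Fin 2) ∈ s ↔ (1 : Fin 2) ∈ s := by
      cases o
      · simpa only [Fin.isValue, pt2G, elim_inl, Bool.true_eq_false, ↓reduceIte] using h1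
      · simpa only [Fin.isValue, pt2G, elim_inl, Bool.false_eq_true, ↓reduceIte] using h1.symm
    by_cases h0 : (0 : Fin 2) ∈ s
    · right
      ext i
      fin_cases i
      · simpa using h0
      · simpa using h2.mp h0
    · left
      ext i
      fin_cases i
      · simpa using h0
      · simpa using fun h => h0 (h2.mpr h)
  · rw [finsum_eq_sum_of_fintype, Fin.sum_univ_two]
    simp [pt2G]
    omega
  · intro v
    have h4 := nv_pt2 ε o (decide (v = 1))
    have h2 : (if decide (v = 1) = true then (1 : Fin 2) else 0) = v := by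
      fin_cases v <;> simp
    rw [h2] at h4
    have h5 : (pt2G γ h ε o).nv v = (pt2 ε o).nv v := rfl
    rw [h5, h4]
    fin_cases v
    · have : ((pt2G γ h ε o).dec 0).1 = γ - h := rfl
      simp only [Fin.zero_eta, Fin.isValue, this, zero_ne_one, decide_false]
      omega
    · have : ((pt2G γ h ε o).dec 1).1 = h := rfl
      simp only [Fin.mk_one, Fin.isValue, this, decide_true]
      omega

lemma deg_pt2G [Fintype M] (γ h : ℕ) (ε : M → Bool) (o : Bool) : (pt2G γ h ε o).deg = 1 := by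
  unfold Gr.deg
  rw [finsum_eq_sum_of_fintype, finsum_eq_sum_of_fintype, Fintype.sum_sum_type]
  simp only [Nat.card_eq_fintype_card, Fintype.card_unique, pt2G, Fin.isValue, Multiset.sum_zero, Finset.sum_const_zero, add_zero, elim_inl, elim_inr]

theorem wt_pt2G [Fintype M] {γ h : ℕ} (hh : h ≤ γ) {ε : M → Bool}
    (h1 : 1 < 2 * h + (Finset.univ.filter (fun x => ε x = true)).card)
    (h0 : 1 < 2 * (γ - h) + (Finset.univ.filter (fun x => ε x = false)).card) (o : Bool)
    (a : M → ℕ) (ha : Even (γ + ∑ x, a x)) :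
    wt (pt2G γ h ε o) γ a 1 = if Even (h + ∑ x, if ε x then a x else 0) then 60 else -84 := by
  rw [wt_eq_wsum, if_pos ⟨stab_pt2G hh h1 h0 o, deg_pt2G γ h ε o⟩, finsum_eq_sum_of_fintype]
  have h1 : ∀ s0 s1 : ℚ, s0 ^ 2 = 1 → s1 ^ 2 = 1 →
      wsum (pt2G γ h ε o) a (fun v => if v = 0 then s0 else s1) =
      s0 ^ (γ - h + 1) * s1 ^ (h + 1) * (60 * (s0 * s1) - 84) *
        (s1 ^ (∑ x, if ε x then a x else 0) * s0 ^ (∑ x, if ε x then 0 else a x)) := by
    intro s0 s1 hs0 hs1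
    unfold wsum
    rw [finprod_eq_prod_of_fintype, finprod_eq_prod_of_fintype, finprod_eq_prod_of_fintype,
      Fin.prod_univ_two, Fintype.prod_subsingleton _ (0 : Fin 1)]
    congr 1
    · congr 1
      · simp only [Fin.isValue, ↓reduceIte, pt2G, zero_ne_one, one_ne_zero, kapF, Multiset.map_zero, Multiset.prod_zero, Multiset.toFinset_zero, Multiset.notMem_zero, not_false_eq_true, Multiset.count_eq_zero_of_notMem, Nat.factorial_zero, Nat.cast_one, Finset.prod_const_one, ne_eq, one_ne_zero, div_self, mul_one]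
      · cases o
        · simp only [pt2G, Sum.elim_inl]
          simp
          rw [edgeF_zero _ _ hs0]
        · simp only [pt2G, Sum.elim_inl]
          simp
          rw [edgeF_zero _ _ hs1]
          ring
    · rw [← Finset.prod_pow_eq_pow_sum, ← Finset.prod_pow_eq_pow_sum, ← Finset.prod_mul_distrib]
      apply Finset.prod_congr rfl
      intro x _
      simp only [pt2G, Sum.elim_inr, B_at_zero]
      by_cases h : ε x = true
      · simp [h]
      · have h' : ε x = false := by simpa using h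
        simp [h']
  have h2 : ∀ ζ : Fin 2 → Bool, (fun v => sg (ζ v)) =
      fun v : Fin 2 => if v = 0 then sg (ζ 0) else sg (ζ 1) := by
    intro ζ
    funext v
    fin_cases v <;> simp
  have h3 : ∀ ζ : Fin 2 → Bool, wsum (pt2G γ h ε o) a (fun v => sg (ζ v)) =
      sg (ζ 0) ^ (γ - h + 1) * sg (ζ 1) ^ (h + 1) * (60 * (sg (ζ 0) * sg (ζ 1)) - 84) *
        (sg (ζ 1) ^ (∑ x, if ε x then a x else 0) *
        sg (ζ 0) ^ (∑ x, if ε x then 0 else a x)) := by
    intro ζ
    rw [h2, h1 _ _ (sg_sq _) (sg_sq _)]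
  simp_rw [h3]
  rw [← Equiv.sum_comp (finTwoArrowEquiv Bool).symm, Fintype.sum_prod_type, Fintype.sum_bool,
    Fintype.sum_bool, Fintype.sum_bool]
  have hA : ∑ x, a x = (∑ x, if ε x then a x else 0) + (∑ x, if ε x then 0 else a x) := by
    rw [← Finset.sum_add_distrib]
    apply Finset.sum_congr rfl
    intro x _
    split_ifs <;> simp
  rw [hA] at ha
  have e1 : sg true = 1 := rfl
  have e2 : sg false = -1 := rfl
  simp only [finTwoArrowEquiv_symm_apply, Matrix.cons_val_zero, Matrix.cons_val_one, e1, e2,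
    one_pow]
  have e3 : Nat.card (Fin 1) = 1 := by simp
  rw [e3]
  have hb : (Even (h + ∑ x, if ε x then a x else 0) ↔
      Even (γ - h + ∑ x, if ε x then 0 else a x)) := by
    have : γ + ((∑ x, if ε x then a x else 0) + ∑ x, if ε x then 0 else a x) =
      (h + ∑ x, if ε x then a x else 0) + (γ - h + ∑ x, if ε x then 0 else a x) := by omega
    rw [this, Nat.even_add] at ha
    exact ha
  generalize hx : (∑ x, if ε x then a x else 0) = X at *
  generalize hy : (∑ x, if ε x then 0 else a x) = Y at *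
  by_cases hev : Even (h + X)
  · have hev' := hb.mp hev
    rw [if_pos hev]
    have p1 : (-1 : ℚ) ^ (h + 1) * (-1) ^ X = -1 := by
      rw [← pow_add, show h + 1 + X = h + X + 1 by ring, pow_succ, hev.neg_one_pow]; norm_num
    have p2 : (-1 : ℚ) ^ (γ - h + 1) * (-1) ^ Y = -1 := by
      rw [← pow_add, show γ - h + 1 + Y = γ - h + Y + 1 by ring, pow_succ, hev'.neg_one_pow]
      norm_num
    linear_combination (1 / 4) * (-60 - 84) * p1 + (1 / 4) * (-60 - 84) * p2 +
      (1 / 4) * (60 - 84) * ((-1 : ℚ) ^ (h + 1) * (-1) ^ X) * p2 - (1 / 4) * (60 - 84) * p1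
  · have hev' : ¬ Even (γ - h + Y) := fun h => hev (hb.mpr h)
    rw [if_neg hev]
    have p1 : (-1 : ℚ) ^ (h + 1) * (-1) ^ X = 1 := by
      rw [← pow_add, show h + 1 + X = h + X + 1 by ring, pow_succ,
        (Nat.not_even_iff_odd.mp hev).neg_one_pow]; norm_num
    have p2 : (-1 : ℚ) ^ (γ - h + 1) * (-1) ^ Y = 1 := by
      rw [← pow_add, show γ - h + 1 + Y = γ - h + Y + 1 by ring, pow_succ,
        (Nat.not_even_iff_odd.mp hev').neg_one_pow]; norm_num
    linear_combination (1 / 4) * (-60 - 84) * p1 + (1 / 4) * (-60 - 84) * p2 +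
      (1 / 4) * (60 - 84) * ((-1 : ℚ) ^ (h + 1) * (-1) ^ X) * p2 + (1 / 4) * (60 - 84) * p1

/-- The graph with two vertices has weight zero if it is not stable. -/
lemma wt_pt2G' [Fintype M] {γ h : ℕ} (hh : h ≤ γ) (ε : M → Bool) (o : Bool)
    (a : M → ℕ) (ha : Even (γ + ∑ x, a x)) :
    wt (pt2G γ h ε o) γ a 1 =
      if 1 < 2 * h + (Finset.univ.filter (fun x => ε x = true)).card ∧
        1 < 2 * (γ - h) + (Finset.univ.filter (fun x => ε x = false)).card
      then (if Even (h + ∑ x, if ε x then a x else 0) then 60 else -84) else 0 := by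
  split_ifs with h1
  · rw [wt_pt2G hh h1.1 h1.2 o a ha, if_pos (by assumption)]
  · rw [wt_pt2G hh h1.1 h1.2 o a ha, if_neg (by assumption)]
  · by_contra hne
    apply h1
    obtain ⟨⟨_, _, _, h4⟩, _⟩ := wt_ne_zero hne
    have h5 := h4 0
    have h6 := h4 1
    have e1 := nv_pt2 ε o true
    have e0 := nv_pt2 ε o false
    simp only [if_true] at e1
    rw [if_neg (by simp)] at e0
    have h7 : ∀ v, (pt2G γ h ε o).nv v = (pt2 ε o).nv v := fun v => rfl
    rw [h7, e0] at h5
    rw [h7, e1] at h6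
    have h9 : ((pt2G γ h ε o).dec 0).1 = γ - h := rfl
    have h10 : ((pt2G γ h ε o).dec 1).1 = h := rfl
    rw [h9] at h5
    rw [h10] at h6
    constructor
    · omega
    · omega

/-- the graph with a loop -/
lemma nv_lpG [Fintype M] (γ : ℕ) (v : Fin 1) : (lpG γ M).nv v = 2 + Fintype.card M := by
  rw [nv_eq_finsum, finsum_eq_sum_of_fintype, Fintype.sum_sum_type, Fintype.sum_prod_type]
  have : ∀ y, ((lpG γ M).hf y).1 = v := fun y => Subsingleton.elim _ _
  simp [this]

lemma stab_lpG [Fintype M] {γ : ℕ} (hγ : 1 ≤ γ) (hst : 2 < 2 * γ + Fintype.card M) :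
    (lpG γ M).Stab γ := by
  refine ⟨⟨0⟩, ?_, ?_, ?_⟩
  · intro s hs
    by_cases h0 : (0 : Fin 1) ∈ s
    · right
      ext i
      rw [Subsingleton.elim i 0]
      simpa using h0
    · left
      ext i
      rw [Subsingleton.elim i 0]
      simpa using h0
  · rw [finsum_eq_sum_of_fintype]
    simp [lpG]
    omega
  · intro v
    rw [nv_lpG]
    have : ((lpG γ M).dec v).1 = γ - 1 := rfl
    rw [this]
    omega

lemma deg_lpG [Fintype M] (γ : ℕ) : (lpG γ M).deg = 1 := by
  unfold Gr.deg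
  rw [finsum_eq_sum_of_fintype, finsum_eq_sum_of_fintype, Fintype.sum_sum_type]
  simp [lpG]

theorem wt_lpG [Fintype M] {γ : ℕ} (hγ : 1 ≤ γ) (hst : 2 < 2 * γ + Fintype.card M)
    (a : M → ℕ) (ha : Even (γ + ∑ x, a x)) : wt (lpG γ M) γ a 1 = -12 := by
  rw [wt_eq_wsum, if_pos ⟨stab_lpG hγ hst, deg_lpG γ⟩, finsum_eq_sum_of_fintype]
  have h1 : ∀ s : ℚ, s ^ 2 = 1 → wsum (lpG γ M) a (fun _ => s) =
      s ^ (γ + ∑ x, a x) * (-24) := by
    intro s hs
    unfold wsum
    rw [finprod_eq_prod_of_fintype, finprod_eq_prod_of_fintype, finprod_eq_prod_of_fintype,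
      Fintype.prod_subsingleton _ (0 : Fin 1), Fintype.prod_subsingleton _ (0 : Fin 1)]
    have e1 : ((lpG γ M).dec 0) = (γ - 1, 0) := rfl
    have e2 : ∀ y, ((lpG γ M).hf y).2 = 0 := by
      rintro (y | y) <;> rfl
    simp only [e1, e2, B_at_zero]
    rw [edgeF_zero _ _ hs, Nat.sub_add_cancel hγ, Finset.prod_pow_eq_pow_sum, pow_add]
    simp only [kapF, Multiset.map_zero, Multiset.prod_zero, Multiset.toFinset_zero, Finset.prod_empty, div_one, mul_one]
    linear_combination (60 * s ^ γ * s ^ (∑ x, a x)) * hs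
  have h2 : ∀ ζ : Fin 1 → Bool, wsum (lpG γ M) a (fun v => sg (ζ v)) = -24 := by
    intro ζ
    have : (fun v => sg (ζ v)) = fun _ => sg (ζ 0) := by
      funext v
      rw [Subsingleton.elim v 0]
    rw [this, h1 _ (sg_sq _)]
    obtain ⟨n, hn⟩ := ha
    rw [hn, ← two_mul, pow_mul, sg_sq, one_pow, one_mul]
  simp_rw [h2]
  have e3 : Nat.card (Fin 1) = 1 := by simp
  rw [e3]
  simp
  norm_num

lemma wt_lpG_zero [Fintype M] (a : M → ℕ) : wt (lpG 0 M) 0 a 1 = 0 := by
  by_contra hne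
  obtain ⟨⟨_, _, h3, _⟩, _⟩ := wt_ne_zero hne
  rw [finsum_eq_sum_of_fintype] at h3
  simp [lpG] at h3

/-! ### the evaluation -/

/-- the splitting `(h, ε)` is stable: genus `h` and the legs with `ε x` at the vertex `1`, the rest
at the vertex `0`. -/
def StG [Fintype M] (γ h : ℕ) (ε : M → Bool) : Prop :=
  1 < 2 * h + (Finset.univ.filter (fun x => ε x = true)).card ∧
    1 < 2 * (γ - h) + (Finset.univ.filter (fun x => ε x = false)).card

/-- the coefficient of a graph with two vertices, up to a factor -/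
def ckG [Fintype M] (γ h : ℕ) (a : M → ℕ) (ε : M → Bool) (s t : ℚ) : ℚ :=
  if StG γ h ε then (if Even (h + ∑ x, if ε x then a x else 0) then s else t) else 0

/-- **Evaluation of the relation of degree one** `R^1_{γ,a}`, for every genus and every leg set. -/
theorem eval_one [Fintype M] {γ : ℕ} (hst : 2 < 2 * γ + Fintype.card M) {a : M → ℕ}
    (ha : Even (γ + ∑ x, a x)) (h1 : ∀ x, a x ≤ 1)
    (φ : (Σ k m : ℕ, Gr (Fin k) (Fin m) M) → ℚ) :
    ∑ p ∈ supp γ a 1, (wt p.2.2 γ a 1 / (p.1.factorial * p.2.1.factorial * 2 ^ p.2.1)) * φ p =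
      60 * φ ⟨1, 0, pt1 γ {1} (fun _ => 0)⟩ +
      ∑ x, (if a x = 0 then -60 else 84) * φ ⟨1, 0, pt1 γ 0 (fun y => if y = x then 1 else 0)⟩ +
      (if γ = 0 then 0 else -6) * φ ⟨1, 1, lpG γ M⟩ +
      ∑ h : Fin (γ + 1), ∑ ε : M → Bool, ∑ o : Bool,
        ckG γ h a ε 15 (-21) * φ ⟨2, 1, pt2G γ h ε o⟩ := by
  have e0 : ∀ p : Σ k m : ℕ, Gr (Fin k) (Fin m) M,
      (wt p.2.2 γ a 1 / (p.1.factorial * p.2.1.factorial * 2 ^ p.2.1)) * φ p =
      wt p.2.2 γ a 1 * ((1 / (p.1.factorial * p.2.1.factorial * 2 ^ p.2.1)) * φ p) := by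
    intro p
    ring
  rw [Finset.sum_congr rfl fun p _ => e0 p, sum_formG γ
    (fun p => (1 / (p.1.factorial * p.2.1.factorial * 2 ^ p.2.1)) * φ p),
    Fintype.sum_sum_type, Fintype.sum_sum_type, Fintype.sum_option, Fintype.sum_prod_type,
    Fintype.sum_unique (ι := Unit)]
  simp only [Fintype.sum_prod_type, formG]
  rw [wt_none hst a ha]
  have e1 : wt (lpG γ M) γ a 1 = if γ = 0 then 0 else -12 := by
    split_ifs with h
    · subst h
      exact wt_lpG_zero a
    · exact wt_lpG (by omega) hst a ha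
  rw [e1, ← add_assoc]
  congr 1
  · congr 1
    · congr 1
      · norm_num
      · apply Finset.sum_congr rfl
        intro x _
        rw [wt_some hst a ha h1 x]
        norm_num
    · split_ifs <;> norm_num
      ring
  · apply Finset.sum_congr rfl
    intro h _
    apply Finset.sum_congr rfl
    intro ε _
    apply Finset.sum_congr rfl
    intro o _
    rw [wt_pt2G' (by omega) ε o a ha]
    unfold ckG StG
    split_ifs
    · norm_num
      ring
    · norm_num
      ring
    · norm_num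

/-- reversing the edge -/
lemma pt2G_iso (γ h : ℕ) (ε : M → Bool) (o : Bool) :
    (pt2G γ h ε o).Iso (pt2G γ h ε (!o)) := by
  refine ⟨id, fun y => (y.1, !y.2), Function.bijective_id, ?_, fun e => rfl, fun v => rfl, ?_⟩
  · constructor
    · rintro ⟨e, s⟩ ⟨e', s'⟩ h
      simp only [Prod.mk.injEq, Bool.not_inj_iff] at h
      rw [h.1, h.2]
    · rintro ⟨e, s⟩
      exact ⟨(e, !s), by simp⟩
  · rintro (⟨e, s⟩ | x)
    · cases s <;> cases o <;> simp [pt2G]
    · simp [pt2G]

/-- The evaluation for functions that do not depend on the direction of the edge. -/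
theorem eval_one' [Fintype M] {γ : ℕ} (hst : 2 < 2 * γ + Fintype.card M) {a : M → ℕ}
    (ha : Even (γ + ∑ x, a x)) (h1 : ∀ x, a x ≤ 1)
    (φ : (Σ k m : ℕ, Gr (Fin k) (Fin m) M) → ℚ)
    (hφ : ∀ h : Fin (γ + 1), ∀ ε, φ ⟨2, 1, pt2G γ h ε false⟩ = φ ⟨2, 1, pt2G γ h ε true⟩) :
    ∑ p ∈ supp γ a 1, (wt p.2.2 γ a 1 / (p.1.factorial * p.2.1.factorial * 2 ^ p.2.1)) * φ p =
      60 * φ ⟨1, 0, pt1 γ {1} (fun _ => 0)⟩ +
      ∑ x, (if a x = 0 then -60 else 84) * φ ⟨1, 0, pt1 γ 0 (fun y => if y = x then 1 else 0)⟩ +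
      (if γ = 0 then 0 else -6) * φ ⟨1, 1, lpG γ M⟩ +
      ∑ h : Fin (γ + 1), ∑ ε : M → Bool, ckG γ h a ε 30 (-42) * φ ⟨2, 1, pt2G γ h ε true⟩ := by
  rw [eval_one hst ha h1]
  congr 1
  apply Finset.sum_congr rfl
  intro h _
  apply Finset.sum_congr rfl
  intro ε _
  rw [Fintype.sum_bool, hφ h ε]
  unfold ckG
  split_ifs <;> ring

/-- in the wrong parity the relation is zero term by term -/
theorem sum_odd [Fintype M] {γ d : ℕ} {a : M → ℕ} (ha : ¬ Even (γ + 1 + d + ∑ x, a x))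
    (φ : (Σ k m : ℕ, Gr (Fin k) (Fin m) M) → ℚ) :
    ∑ p ∈ supp γ a d, (wt p.2.2 γ a d / (p.1.factorial * p.2.1.factorial * 2 ^ p.2.1)) * φ p =
      0 := by
  apply Finset.sum_eq_zero
  intro p _
  rw [wt_odd _ ha, zero_div, zero_mul]

/-- a stable graph has a stable genus and number of legs -/
lemma stab_lt [Finite L] {G : Gr V E L} {g : ℕ} (hV : Finite V) (hE : Finite E)
    (h : G.Stab g) : 2 < 2 * g + Nat.card L := by
  have := Fintype.ofFinite V
  have h1 := sum_nv G
  obtain ⟨⟨v0⟩, _, h3, h4⟩ := h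
  rw [finsum_eq_sum_of_fintype, Nat.card_eq_fintype_card (α := V)] at h3
  have h5 : ∑ v : V, 3 ≤ ∑ v, (2 * (G.dec v).1 + G.nv v) := Finset.sum_le_sum fun v _ => h4 v
  rw [Finset.sum_add_distrib, ← Finset.mul_sum, h1, Finset.sum_const, Finset.card_univ,
    smul_eq_mul] at h5
  have h6 : 0 < Fintype.card V := Fintype.card_pos_iff.mpr ⟨v0⟩
  omega

/-- without stability there is nothing -/
theorem sum_unst [Fintype M] {γ d : ℕ} {a : M → ℕ} (hst : 2 * γ + Fintype.card M ≤ 2)
    (φ : (Σ k m : ℕ, Gr (Fin k) (Fin m) M) → ℚ) :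
    ∑ p ∈ supp γ a d, (wt p.2.2 γ a d / (p.1.factorial * p.2.1.factorial * 2 ^ p.2.1)) * φ p =
      0 := by
  apply Finset.sum_eq_zero
  intro p _
  have : wt p.2.2 γ a d = 0 := by
    by_contra hne
    have h2 := stab_lt inferInstance inferInstance (wt_ne_zero hne).1
    rw [Nat.card_eq_fintype_card] at h2
    omega
  rw [this, zero_div, zero_mul]

end Vale.Agent.P273.D14.H18
end
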