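import Vale.Agent.P273.D14.H18.Base

/-!
The relations in genus 0.
-/

noncomputable section
namespace Vale.Agent.P273.D14.H18
open Sum Vale.Agent.P273 Vale.Agent.P273.D14.H387 Vale.Agent.P273.C1.R3B Vale.Agent.P273.C1.R1B
open scoped Classical

variable {V E R T L N : Type}

lemma unused_zero {W : Env R T L N} (h : ∀ z, inl z ∈ Set.range W.use) (Γ : Gr V E L) (v : V) :
    W.unused Γ v = 0 := by
  unfold Env.unused
  apply finsum_eq_zero_of_forall_eq_zero
  intro z
  rw [finsum_eq_if, if_neg (fun h' => h'.1 (h z))]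

/-- The position `z` is the position of a leg. -/
def Pos (x : Bool → Bool → L) (z : L) : Prop := ∃ c t, z = x c t

/-- The distribution of the positions: `τ` for the legs, `δ` for the half-edges. -/
def dst (x : Bool → Bool → L) (τ : L → Bool) (δ : {z // ¬ Pos x z} → Bool) (z : L) :
    Bool := if h : Pos x z then τ z else δ ⟨z, h⟩

lemma dst_x (x : Bool → Bool → L) (τ : L → Bool) (δ : {z // ¬ Pos x z} → Bool)
    (c t : Bool) : dst x τ δ (x c t) = τ (x c t) := by
  unfold dst
  rw [dif_pos ⟨c, t, rfl⟩]

lemma dst_d (x : Bool → Bool → L) (τ : L → Bool) (δ : {z // ¬ Pos x z} → Bool)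
    (d : {z // ¬ Pos x z}) : dst x τ δ d.1 = δ d := by
  unfold dst
  rw [dif_neg d.2]

lemma hf_pt2 (W : Env R T L N) {γ h : ℕ} {ε : L → Bool} {y : (T × Bool) ⊕ N} {z : L}
    (hy : W.use y = inl z) : (W.graft (pt2G γ h ε true)).hf (lft (Fin 1) y) =
      (inl (if ε z then 1 else 0), W.b z) := by
  rw [graft_hf_lft, Env.usehf_inl hy]
  show (inl (if ε z then 1 else 0), 0 + W.b z) = _
  rw [zero_add]

lemma hf_env (W : Env R T L N) {Γ : Gr V E L} {y : (T × Bool) ⊕ N} {p : R × ℕ}
    (hy : W.use y = inr p) : (W.graft Γ).hf (lft E y) = (inr p.1, p.2) := by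
  rw [graft_hf_lft, Env.usehf_inr hy]

lemma nv_three [Finite E] {f : (E × Bool) ⊕ LL → V × ℕ} {v : V} {y1 y2 y3 : (E × Bool) ⊕ LL}
    (h12 : y1 ≠ y2) (h13 : y1 ≠ y3) (h23 : y2 ≠ y3) (h1 : (f y1).1 = v) (h2 : (f y2).1 = v)
    (h3 : (f y3).1 = v) : 3 ≤ Q.nv f v := by
  have := Fintype.ofFinite E
  unfold Q.nv
  rw [Nat.card_eq_fintype_card, Fintype.card_subtype]
  have h4 : ({y1, y2, y3} : Finset ((E × Bool) ⊕ LL)).card = 3 := by
    rw [Finset.card_insert_of_notMem, Finset.card_pair h23]
    simp [h12, h13]
  rw [← h4]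
  apply Finset.card_le_card
  intro y hy
  simp only [Finset.mem_insert, Finset.mem_singleton] at hy
  simp only [Finset.mem_filter, Finset.mem_univ, true_and]
  rcases hy with rfl | rfl | rfl <;> assumption

theorem f0_G {φ : Und} (hφ : φ.Inv) (hst : Star φ) : H462.F0 (G φ) := by
  intro R T L _ _ _ r u hr hu i x hT hall
  have := Fintype.ofFinite L
  let W : Env R T L LL := ⟨r, u, fun _ => 0⟩
  have hne : x true true ≠ x false true := by
    intro h
    have := (two_inj hu hT h).1
    simp at this
  have hA : ∀ ε : L → Bool, ∑ z, (if ε z then (if z = x true true ∨ z = x false true then 1 else 0)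
      else 0) = (if ε (x true true) then 1 else 0) + (if ε (x false true) then 1 else 0) := by
    intro ε
    have h1 : ∀ z, (if ε z then (if z = x true true ∨ z = x false true then 1 else 0)
      else 0) = (if z = x true true then (if ε (x true true) then 1 else 0) else 0) +
        (if z = x false true then (if ε (x false true) then 1 else 0) else 0) := by
      intro z
      by_cases h2 : z = x true true
      · rw [if_pos (Or.inl h2), if_pos h2, if_neg (fun h3 => hne (h2.symm.trans h3)), h2, add_zero]
      · by_cases h3 : z = x false true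
        · rw [if_pos (Or.inr h3), if_neg h2, if_pos h3, h3, zero_add]
        · rw [if_neg h2, if_neg h3, if_neg (c := z = x true true ∨ z = x false true)
            (fun h => h.elim h2 h3), ite_self]
    rw [Finset.sum_congr rfl fun z _ => h1 z, Finset.sum_add_distrib, Finset.sum_ite_eq',
      Finset.sum_ite_eq', if_pos (Finset.mem_univ _), if_pos (Finset.mem_univ _)]
  have hA2 : ∑ z, (if z = x true true ∨ z = x false true then 1 else 0) = 2 := by
    have := hA (fun _ => true)
    simpa using this
  change rl (G φ) W.dec W.use W.b _ 0 1 = 0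
  rw [rl_one (tr_G hφ) W (γ := 0) (by have := two_card hu hT; omega)
    (by rw [hA2]; exact even_two) (by intro z; split_ifs <;> omega)]
  have hun : ∀ {V E : Type} (Γ : Gr V E L) (v : V), W.unused Γ v = 0 := unused_zero hall
  have e1 : Mv.sg (G φ) (W.graft (pt1 0 {1} (fun _ => 0))) = 0 := by
    by_contra h
    have h1 := (sp_rat h (v := inl 0) rfl).1
    rw [Env.graft_dec_inl, hun] at h1
    exact one_ne_zero h1
  have e2 : ∀ z, Mv.sg (G φ) (W.graft (pt1 0 0 (fun y => if y = z then 1 else 0))) = 0 := by
    intro z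
    by_contra h
    obtain ⟨y, hy⟩ := hall z
    have h1 := (sp_rat h (v := inl 0) rfl).2.1 (lft (Fin 0) y)
    rw [graft_hf_lft, Env.usehf_inl hy] at h1
    have h2 := h1 rfl
    change (if z = z then 1 else 0) + 0 = 0 at h2
    rw [if_pos rfl] at h2
    omega
  rw [e1, mul_zero, zero_add, Finset.sum_eq_zero (fun z _ => by rw [e2 z, mul_zero]), if_pos rfl,
    zero_mul, add_zero, zero_add]
  apply Finset.sum_eq_zero
  intro h _
  have hh : (h : ℕ) = 0 := by omega
  apply sum_fiber (Pos x)
  intro τ
  change ∑ δ, ckG 0 h _ (dst x τ δ) 30 (-42) *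
    Mv.sg (G φ) (W.graft (pt2G 0 h (dst x τ δ) true)) = 0
  have hleg : ∀ (δ : {z // ¬ Pos x z} → Bool) (c t : Bool),
      (W.graft (pt2G 0 h (dst x τ δ) true)).hf (inr (i c t, c)) =
        (inl (if τ (x c t) then 1 else 0), 0) := by
    intro δ c t
    have := hf_pt2 W (γ := 0) (h := h) (ε := dst x τ δ) (hT.pos c t)
    rw [dst_x] at this
    exact this
  by_cases hτ : ∀ c, τ (x c true) ≠ τ (x c false)
  swap
  · push Not at hτ
    obtain ⟨c, hc⟩ := hτ
    apply Finset.sum_eq_zero
    intro δ _
    apply mul_eq_zero_of_right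
    by_contra h1
    have h2 := (sp_rat h1 (v := inl (if τ (x c true) then 1 else 0)) (by
      show (if _ then (h : ℕ) else 0 - h) = 0
      rw [hh]
      split_ifs <;> rfl)).2.2 c
    have h3 := nl_two (hT.ne c) (f := (W.graft (pt2G 0 h (dst x τ δ) true)).hf) (s := c)
      (v := inl (if τ (x c true) then 1 else 0)) (by rw [hleg]) (by rw [hleg, hc])
    omega
  have hex : ∀ (c b : Bool), ∃ t, τ (x c t) = b := by
    intro c b
    have := hτ c
    by_cases h1 : τ (x c true) = b
    · exact ⟨true, h1⟩
    · refine ⟨false, ?_⟩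
      generalize τ (x c true) = p at *
      generalize τ (x c false) = q at *
      cases p <;> cases q <;> cases b <;> simp at *
  have hck : ∀ δ, ckG 0 h (fun z => if z = x true true ∨ z = x false true then 1 else 0)
      (dst x τ δ) 30 (-42) = if τ (x true true) = τ (x false true) then 30 else -42 := by
    intro δ
    unfold ckG
    have hcard : ∀ b, 1 < (Finset.univ.filter (fun z => dst x τ δ z = b)).card := by
      intro b
      obtain ⟨t, ht⟩ := hex true b
      obtain ⟨t', ht'⟩ := hex false b
      rw [Finset.one_lt_card]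
      refine ⟨x true t, ?_, x false t', ?_, ?_⟩
      · rw [Finset.mem_filter, dst_x]
        exact ⟨Finset.mem_univ _, ht⟩
      · rw [Finset.mem_filter, dst_x]
        exact ⟨Finset.mem_univ _, ht'⟩
      · intro h1
        have := (two_inj hu hT h1).1
        simp at this
    have hS : StG 0 h (dst x τ δ) :=
      ⟨by have := hcard true; omega, by have := hcard false; omega⟩
    rw [if_pos hS]
    beta_reduce
    rw [hA, dst_x, dst_x, hh, zero_add]
    generalize τ (x true true) = p
    generalize τ (x false true) = q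
    cases p <;> cases q <;> simp
  simp only [hck]
  rw [← Finset.mul_sum]
  apply mul_eq_zero_of_right
  choose y hy using fun d : {z // ¬ Pos x z} => two_half hT hall d.1 d.2
  have hy' : ∀ d t, y d = t ↔ u (inl t) = inl d.1 := by
    intro d t
    constructor
    · rintro rfl
      exact hy d
    · intro h1
      exact inl.inj (hu _ _ _ (hy d) h1)
  have hdec : ∀ δ, (W.graft (pt2G 0 h (dst x τ δ) true)).dec = Sum.elim (fun _ => (0, 0)) r := by
    intro δ
    funext v
    rcases v with v | v
    · rw [Env.graft_dec_inl, hun]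
      show ((if v = 1 then (h : ℕ) else 0 - h), (0 : Multiset ℕ) + 0) = (0, 0)
      rw [hh]
      split_ifs <;> simp
    · rfl
  have hsum : ∀ δ, Mv.sg (G φ) (W.graft (pt2G 0 h (dst x τ δ) true)) =
      G φ (Fin 2 ⊕ R) (Fin 1 ⊕ T) (Sum.elim (fun _ => (0, 0)) r)
        (W.graft (pt2G 0 h (dst x τ δ) true)).hf := by
    intro δ
    unfold Mv.sg
    rw [hdec]
  rw [Finset.sum_congr rfl fun δ _ => hsum δ]
  have M : Fam (fun d => ((inr (y d).1, (y d).2) : (Fin 1 ⊕ T) × Bool)) (inl 0 : Fin 2 ⊕ R)
      (inl 1) (inl 0) (Sum.elim (fun _ => (0, 0)) r)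
      (fun δ => (W.graft (pt2G 0 h (dst x τ δ) true)).hf) := ?_
  · refine Eq.trans (Finset.sum_congr (Finset.ext fun δ => ?_) fun _ _ => rfl) (M.sum_G hφ hst)
    simp only [Finset.mem_univ]
  constructor
  · intro d d' h1
    simp only [Prod.mk.injEq, inr.injEq] at h1
    have h2 : y d = y d' := Prod.ext h1.1 h1.2
    have h3 := hy d
    rw [h2, hy d'] at h3
    exact Subtype.ext (inl.inj h3).symm
  · simp
  · intro d
    simp
  · rfl
  · rfl
  · intro δ d
    have := hf_pt2 W (γ := 0) (h := h) (ε := dst x τ δ) (hy d)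
    rw [dst_d] at this
    refine this.trans ?_
    show (inl (if δ d = true then 1 else 0), 0) = _
    split_ifs <;> rfl
  · intro δ
    rfl
  · intro δ
    rfl
  · rintro ⟨e | t, b⟩ h1 h2
    · exact absurd (congrArg inl (Subsingleton.elim e 0)) h2
    · rcases h3 : u (inl (t, b)) with z | p
      · exfalso
        by_cases h4 : Pos x z
        · obtain ⟨c, t', rfl⟩ := h4
          have := hu _ _ _ h3 (hT.pos c t')
          cases this
        · apply h1
          refine ⟨⟨z, h4⟩, ?_⟩
          have h5 := (hy' ⟨z, h4⟩ (t, b)).2 h3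
          dsimp only
          rw [h5]
      · refine ⟨(inr p.1, p.2), by simp, by simp, ?_⟩
        intro δ
        exact hf_env W (y := inl (t, b)) h3
  · intro z
    rcases h3 : u (inr z) with l | p
    · obtain ⟨c, t, rfl, rfl⟩ := two_leg hT z l h3
      refine ⟨(inl (if τ (x c t) then 1 else 0), 0), fun _ => rfl, ?_⟩
      intro δ
      exact hleg δ c t
    · refine ⟨(inr p.1, p.2), ?_, ?_⟩
      · rintro (h4 | h4) <;> cases h4
      · intro δ
        exact hf_env W (y := inr z) h3
  · intro δ
    have key : ∀ b : Bool, 2 < Q.nv (W.graft (pt2G 0 h (dst x τ δ) true)).hf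
        (inl (if b then 1 else 0)) := by
      intro b
      obtain ⟨t, ht⟩ := hex true b
      obtain ⟨t', ht'⟩ := hex false b
      have h4 := nv_three (f := (W.graft (pt2G 0 h (dst x τ δ) true)).hf)
        (v := inl (if b then 1 else 0)) (y1 := inl (inl 0, b)) (y2 := inr (i true t, true))
        (y3 := inr (i false t', false)) (by simp) (by simp) (by simp)
        (by cases b <;> rfl) (by rw [hleg, ht]) (by rw [hleg, ht'])
      omega
    exact ⟨key false, key true⟩

end Vale.Agent.P273.D14.H18
end
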