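import Vale.Agent.P273.D14.H387.GSP
import Vale.Agent.P273.D14.H743.FDef

/-!
The relation `(*)` for functionals on undecorated graphs, in a form that applies to families of
graphs.
-/

noncomputable section
namespace Vale.Agent.P273.D14.H18
open Sum Vale.Agent.P273 Vale.Agent.P273.D14.H387
open scoped Classical

/-- The relation `(*)`: the sum over all splittings of a vertex. -/
def Star (φ : Und) : Prop := ∀ (V E : Type) [Finite V] [Finite E] (h : E × Bool → V) (v : V),
  ∑ᶠ (S : Set (E × Bool)) (_ : ∀ y ∈ S, h y = v), φ (Option V) (Option E) (FS.split h v S) = 0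

lemma split_some {V E : Type} (h : E × Bool → V) (v : V) (S : Set (E × Bool)) (e : E) (b : Bool) :
    FS.split h v S (some e, b) = if h (e, b) = v ∧ (e, b) ∈ S then none else some (h (e, b)) := by
  show (if _ then _ else _) = (if _ then _ else _)
  by_cases hc : h (e, b) = v ∧ (e, b) ∈ S
  · rw [if_pos hc]
  · rw [if_neg hc]

/-- `(*)` for a family of graphs: the half-edges `q d` move between `v0` and `v1`, the edge `e0`
joins `v1` and `v0`. -/
theorem star_sum {φ : Und} (hφ : φ.Inv) (hst : Star φ) {V' E' D : Type} [Finite V'] [Finite E']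
    [Fintype D] (q : D → E' × Bool) (hq : q.Injective) {v0 v1 : V'} (h01 : v0 ≠ v1) (e0 : E')
    (hq0 : ∀ d, (q d).1 ≠ e0) (F : (D → Bool) → E' × Bool → V')
    (h1 : ∀ δ d, F δ (q d) = if δ d then v1 else v0) (h2 : ∀ δ, F δ (e0, true) = v1)
    (h3 : ∀ δ, F δ (e0, false) = v0)
    (h4 : ∀ y, y ∉ Set.range q → y.1 ≠ e0 → ∃ u, u ≠ v0 ∧ u ≠ v1 ∧ ∀ δ, F δ y = u) :
    ∑ δ : D → Bool, φ V' E' (F δ) = 0 := by
  have hF0 : ∀ y : {e : E' // e ≠ e0} × Bool, F (fun _ => false) (y.1.1, y.2) ≠ v1 := by
    intro y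
    by_cases hy : (y.1.1, y.2) ∈ Set.range q
    · obtain ⟨d, hd⟩ := hy
      rw [← hd, h1]
      simpa using h01
    · obtain ⟨u, hu0, hu1, hu⟩ := h4 _ hy y.1.2
      rw [hu]
      exact hu1
  let h : {e : E' // e ≠ e0} × Bool → {u : V' // u ≠ v1} := fun y =>
    ⟨F (fun _ => false) (y.1.1, y.2), hF0 y⟩
  let v : {u : V' // u ≠ v1} := ⟨v0, h01⟩
  have hv : ∀ y : {e : E' // e ≠ e0} × Bool, h y = v ↔ (y.1.1, y.2) ∈ Set.range q := by
    intro y
    constructor
    · intro hy
      by_contra hcon
      obtain ⟨u, hu0, hu1, hu⟩ := h4 _ hcon y.1.2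
      have := congrArg Subtype.val hy
      change F (fun _ => false) (y.1.1, y.2) = v0 at this
      rw [hu] at this
      exact hu0 this
    · rintro ⟨d, hd⟩
      apply Subtype.ext
      change F (fun _ => false) (y.1.1, y.2) = v0
      rw [← hd, h1]
      simp
  let Sδ : (D → Bool) → Set ({e : E' // e ≠ e0} × Bool) := fun δ =>
    {y | ∃ d, q d = (y.1.1, y.2) ∧ δ d = true}
  have key := hst {u : V' // u ≠ v1} {e : E' // e ≠ e0} h v
  have e1 : ∑ᶠ (S : Set ({e : E' // e ≠ e0} × Bool)) (_ : ∀ y ∈ S, h y = v),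
      φ (Option {u : V' // u ≠ v1}) (Option {e : E' // e ≠ e0}) (FS.split h v S) =
      ∑ᶠ (S) (_ : S ∈ {S : Set ({e : E' // e ≠ e0} × Bool) | ∀ y ∈ S, h y = v}),
      φ (Option {u : V' // u ≠ v1}) (Option {e : E' // e ≠ e0}) (FS.split h v S) := rfl
  rw [e1] at key
  rw [← finsum_eq_sum_of_fintype, ← key, ← finsum_mem_univ]
  apply finsum_mem_eq_of_bijOn Sδ
  · refine ⟨?_, ?_, ?_⟩
    · rintro δ - y ⟨d, hd, _⟩
      exact (hv y).2 ⟨d, hd⟩
    · rintro δ - δ' - hδ
      funext d
      have hd : ∀ δ : D → Bool, δ d = true ↔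
          ((⟨(q d).1, hq0 d⟩, (q d).2) : {e : E' // e ≠ e0} × Bool) ∈ Sδ δ := by
        intro δ
        constructor
        · intro h
          exact ⟨d, rfl, h⟩
        · rintro ⟨d', hd', h⟩
          have : d' = d := hq hd'
          rw [← this]
          exact h
      rw [Bool.eq_iff_iff, hd, hd, hδ]
    · intro S hS
      refine ⟨fun d => decide (((⟨(q d).1, hq0 d⟩, (q d).2) : {e : E' // e ≠ e0} × Bool) ∈ S),
        Set.mem_univ _, ?_⟩
      ext y
      constructor
      · rintro ⟨d, hd, h⟩
        rw [decide_eq_true_eq] at h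
        have hy : y = ((⟨(q d).1, hq0 d⟩, (q d).2) : {e : E' // e ≠ e0} × Bool) := by
          apply Prod.ext
          · apply Subtype.ext
            exact (congrArg Prod.fst hd).symm
          · exact (congrArg Prod.snd hd).symm
        rw [hy]
        exact h
      · intro hy
        obtain ⟨d, hd⟩ := (hv y).1 (hS y hy)
        refine ⟨d, hd, ?_⟩
        rw [decide_eq_true_eq]
        have hy' : y = ((⟨(q d).1, hq0 d⟩, (q d).2) : {e : E' // e ≠ e0} × Bool) := by
          apply Prod.ext
          · apply Subtype.ext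
            exact (congrArg Prod.fst hd).symm
          · exact (congrArg Prod.snd hd).symm
        rw [← hy']
        exact hy
  · rintro δ -
    symm
    apply hφ _ _ _ _ (FS.split h v (Sδ δ)) (F δ) (fun u => u.elim v1 Subtype.val)
      (fun y => (y.1.elim e0 Subtype.val, y.2))
    · constructor
      · rintro (_ | u) (_ | u') hu
        · rfl
        · exact absurd hu.symm u'.2
        · exact absurd hu u.2
        · exact congrArg some (Subtype.ext hu)
      · intro u
        by_cases hu : u = v1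
        · exact ⟨none, hu.symm⟩
        · exact ⟨some ⟨u, hu⟩, rfl⟩
    · constructor
      · rintro ⟨_ | e, b⟩ ⟨_ | e', b'⟩ hu
        · have h6 : b = b' := congrArg Prod.snd hu
          rw [h6]
        · exact absurd (congrArg Prod.fst hu).symm e'.2
        · exact absurd (congrArg Prod.fst hu) e.2
        · have h6 : b = b' := congrArg Prod.snd hu
          have h7 : e.1 = e'.1 := congrArg Prod.fst hu
          rw [h6, Subtype.ext h7]
      · rintro ⟨e, b⟩
        by_cases he : e = e0
        · exact ⟨(none, b), by rw [he]; rfl⟩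
        · exact ⟨(some ⟨e, he⟩, b), rfl⟩
    · intro e
      rfl
    · rintro ⟨_ | e, b⟩
      · cases b
        · exact h3 δ
        · exact h2 δ
      · show F δ (e.1, b) = _
        by_cases hy : (e.1, b) ∈ Set.range q
        · have hv' := (hv (e, b)).2 hy
          obtain ⟨d, hd⟩ := hy
          have e2 : (e, b) ∈ Sδ δ ↔ δ d = true := by
            constructor
            · rintro ⟨d', hd', h⟩
              have : d' = d := hq (by rw [hd', hd])
              rw [← this]
              exact h
            · intro h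
              exact ⟨d, hd, h⟩
          have e3 := split_some h v (Sδ δ) e b
          rw [e3, ← hd, h1]
          by_cases hδ : δ d = true
          · rw [if_pos hδ, if_pos ⟨hv', e2.2 hδ⟩]
            rfl
          · rw [if_neg hδ, if_neg (fun h => hδ (e2.1 h.2)), hv']
            rfl
        · have hv' : ¬ h (e, b) = v := fun h => hy ((hv (e, b)).1 h)
          have e3 := split_some h v (Sδ δ) e b
          rw [e3, if_neg (fun h => hv' h.1)]
          show F δ (e.1, b) = F (fun _ => false) (e.1, b)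
          obtain ⟨u, hu0, hu1, hu⟩ := h4 _ hy e.2
          rw [hu, hu]

/-- The same for `val`, when the legs do not move. -/
theorem star_val {φ : Und} (hφ : φ.Inv) (hst : Star φ) {V' E' D : Type} [Finite V'] [Finite E']
    [Fintype D] (q : D → E' × Bool) (hq : q.Injective) {v0 v1 : V'} (h01 : v0 ≠ v1) (e0 : E')
    (hq0 : ∀ d, (q d).1 ≠ e0) (F : (D → Bool) → (E' × Bool) ⊕ LL → V')
    (h1 : ∀ δ d, F δ (inl (q d)) = if δ d then v1 else v0)
    (h2 : ∀ δ, F δ (inl (e0, true)) = v1) (h3 : ∀ δ, F δ (inl (e0, false)) = v0)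
    (h4 : ∀ y, y ∉ Set.range q → y.1 ≠ e0 → ∃ u, u ≠ v0 ∧ u ≠ v1 ∧ ∀ δ, F δ (inl y) = u)
    (h5 : ∀ δ δ' x, F δ (inr x) = F δ' (inr x)) :
    ∑ δ : D → Bool, val φ (F δ) = 0 := by
  have e1 : ∀ δ, val φ (F δ) = sgM (fun x => F (fun _ => false) (inr x)) *
      φ V' E' (fun y => F δ (inl y)) := by
    intro δ
    unfold val
    congr 2
    funext x
    exact h5 _ _ x
  rw [Finset.sum_congr rfl fun δ _ => e1 δ, ← Finset.mul_sum,
    star_sum hφ hst q hq h01 e0 hq0 (fun δ y => F δ (inl y)) h1 h2 h3 h4, mul_zero]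

end Vale.Agent.P273.D14.H18
end
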